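import Vale.Agent.P284.H206.Sp.A6

/-!
# P284 (helper206), DOM ⇒ SPECIAL: the normal form of a Bogomolov sheaf; density of the points where a
morphism does not vanish
-/

open scoped Manifold ContDiff Topology ComplexOrder ComplexConjugate Matrix
open Filter Set MeasureTheory

noncomputable section

namespace Vale.Agent.P284.H206.Sp

open Vale.Agent.P272.K Vale.Agent.P284.H248 Vale.Agent.P284.H206.Bog Vale.Agent.P284.H998
  Vale.Agent.P284.H206

section
variable {n r : ℕ} {X : Type} [TopologicalSpace X] [ChartedSpace (Cm n) X]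
  [IsManifold 𝓘(ℂ, Cm n) ω X] {L : LineBundle n X} {k : ℕ}

/-- the map given by the ratios of sections -/
def rb (s : Fin (r + 1) → Sec L k) (i : L.ι) (e : Chart n X) (z : Cm n) (a : Fin r) : ℂ :=
  (s a.succ).f i (e.symm z) / (s 0).f i (e.symm z)

/-- functionals which are independent have a dual family -/
theorem exists_dual {m N : ℕ} {f : Fin m → (Cm N →L[ℂ] ℂ)} (hf : LinearIndependent ℂ f) :
    ∃ E : Fin m → Cm N, ∀ a b, f a (E b) = if a = b then 1 else 0 := by
  set T : Cm N →ₗ[ℂ] Cm m := LinearMap.pi fun a => (f a).toLinearMap with hT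
  have hsurj : Function.Surjective T := by
    rw [← LinearMap.range_eq_top]
    by_contra hne
    obtain ⟨g, hg0, hg⟩ := Submodule.exists_le_ker_of_lt_top _ (lt_top_iff_ne_top.2 hne)
    have h1 : ∀ v, ∑ a, g (Pi.single a 1) * f a v = 0 := by
      intro v
      have h2 : g (T v) = 0 := LinearMap.mem_ker.1 (hg ⟨v, rfl⟩)
      have h3 : T v = ∑ a, f a v • (Pi.single a 1 : Cm m) := by
        funext b
        simp [hT, Finset.sum_apply, Pi.single_apply]
      rw [h3, map_sum] at h2
      simp only [map_smul, smul_eq_mul] at h2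
      rw [← h2]
      exact Finset.sum_congr rfl fun a _ => mul_comm _ _
    have h4 := Fintype.linearIndependent_iff.1 hf (fun a => g (Pi.single a 1)) (by
      ext1 v
      simpa [sum_apply] using h1 v)
    apply hg0
    ext a
    simpa using h4 a
  choose E hE using fun b => hsurj (Pi.single b 1)
  refine ⟨E, fun a b => ?_⟩
  have := congrFun (hE b) a
  rw [hT] at this
  simp only [LinearMap.pi_apply] at this
  rw [show f a (E b) = (f a).toLinearMap (E b) from rfl, this, Pi.single_apply]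

theorem indep_of_dual {m N : ℕ} {f : Fin m → (Cm N →ₗ[ℂ] ℂ)} {E : Fin m → Cm N}
    (h : (Matrix.of fun a b => f a (E b)).det ≠ 0) :
    ∃ E' : Fin m → Cm N, ∀ a b, f a (E' b) = if a = b then 1 else 0 := by
  set M : Matrix (Fin m) (Fin m) ℂ := Matrix.of fun a b => f a (E b) with hM
  have hu : IsUnit M.det := isUnit_iff_ne_zero.2 h
  refine ⟨fun b => ∑ c, M⁻¹ c b • E c, fun a b => ?_⟩
  have h1 : f a (∑ c, M⁻¹ c b • E c) = (M * M⁻¹) a b := by
    rw [map_sum, Matrix.mul_apply]
    refine Finset.sum_congr rfl fun c _ => ?_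
    rw [map_smul, smul_eq_mul, mul_comm]
    rfl
  rw [h1, Matrix.mul_nonsing_inv _ hu, Matrix.one_apply]

/-- the normal form `φ = U det (Db)` with `b` the ratios of sections -/
theorem dec_of [T2Space X] [CompactSpace X] {ι : Type} [Fintype ι] (pj : PJ n X ι)
    (φ : Mor L (r + 1)) (hk : k ≠ 0) (s : Fin (r + 1 + 1) → Sec L k) {i : L.ι} {e : Chart n X} {x : X}
    (he : At e x) (hi : x ∈ L.U i) (hs : (s 0).f i x ≠ 0)
    (hli : LinearIndependent ℂ fun a : Fin (r + 1) => dq (s 0) (s a.succ) i e (e x))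
    (hφ : φ.form i e (e x) ≠ 0) :
    ∃ U : Cm n → ℂ, AnalyticAt ℂ U (e x) ∧ U (e x) ≠ 0 ∧ AnalyticAt ℂ (rb s i e) (e x) ∧
      Function.Surjective (fderiv ℂ (rb s i e) (e x)) ∧
      ∀ᶠ z in 𝓝 (e x), ∀ ξ : Fin (r + 1) → Cm n,
        φ.form i e z ξ = U z * (Matrix.of fun a b => fderiv ℂ (rb s i e) z (ξ b) a).det := by
  obtain ⟨E, hE⟩ := exists_dual hli
  have hsh : ∀ a, AnalyticAt ℂ (fun z => (s a).f i (e.symm z)) (e x) := fun a =>
    ((s a).holo i e x he hi).analyticAt
  have hs1 : (s 0).f i (e.symm (e x)) ≠ 0 := by rwa [he.left_inv]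
  have hra : ∀ a, AnalyticAt ℂ (fun z => rb s i e z a) (e x) := fun a => (hsh _).div (hsh 0) hs1
  have hrb : AnalyticAt ℂ (rb s i e) (e x) := analyticAt_pi_iff.2 hra
  have hfd : ∀ z, DifferentiableAt ℂ (rb s i e) z → ∀ (v : Cm n) (a : Fin (r + 1)),
      fderiv ℂ (rb s i e) z v a = dq (s 0) (s a.succ) i e z v := by
    intro z hz v a
    have h1 := fderiv_apply (𝕜 := ℂ) hz a
    show _ = fderiv ℂ (fun z => rb s i e z a) z v
    rw [h1]
    rfl
  set M : Cm n → Matrix (Fin (r + 1)) (Fin (r + 1)) ℂ := fun z =>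
    Matrix.of fun a b => dq (s 0) (s a.succ) i e z (E b) with hM
  have hMd : AnalyticAt ℂ (fun z => (M z).det) (e x) := by
    have h1 : (fun z => (M z).det) = fun z => ∑ σ : Equiv.Perm (Fin (r + 1)),
        ((Equiv.Perm.sign σ : ℤ) : ℂ) * ∏ l, M z (σ l) l := by
      funext z
      exact Matrix.det_apply' (M z)
    rw [h1]
    refine Finset.analyticAt_fun_sum _ fun σ _ => analyticAt_const.mul
      (Finset.analyticAt_fun_prod _ fun l _ => ?_)
    exact (ContinuousLinearMap.apply ℂ ℂ (E l)).analyticAt _ |>.comp (hra (σ l)).fderiv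
  have hM1 : (M (e x)).det = 1 := by
    have : M (e x) = 1 := by
      ext a b
      rw [Matrix.one_apply]
      exact hE a b
    rw [this, Matrix.det_one]
  have hM0 : (M (e x)).det ≠ 0 := by rw [hM1]; exact one_ne_zero
  have hφE : AnalyticAt ℂ (fun z => φ.form i e z E) (e x) := (φ.holo i e x he hi E).analyticAt
  -- the normal form near `e x`
  have hev : ∀ᶠ z in 𝓝 (e x), DifferentiableAt ℂ (rb s i e) z ∧ ∀ ξ : Fin (r + 1) → Cm n,
      φ.form i e z ξ = φ.form i e z E / (M z).det *
        (Matrix.of fun a b => dq (s 0) (s a.succ) i e z (ξ b)).det := by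
    have h1 : ∀ᶠ z in 𝓝 (e x), e.symm z ∈ L.U i := ev_symm he ((L.isOpen i).mem_nhds hi)
    filter_upwards [he.nhds_target, h1, (hsh 0).continuousAt.eventually_ne hs1,
      hMd.continuousAt.eventually_ne hM0, hrb.eventually_analyticAt] with z hz1 hz2 hz3 hz4 hz5
    refine ⟨hz5.differentiableAt, fun ξ => ?_⟩
    have hAt : At e (e.symm z) := At.of_target he.1 hz1
    have hez : e (e.symm z) = z := e.right_inv hz1
    have h2 : ∀ a : Fin (r + 1), wd (dq (s 0) (s a.succ) i e z).toLinearMap (φ.form i e z) = 0 := by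
      intro a
      have := Om_zero pj φ hk (s 0) (s a.succ) hAt hz2 hz3
      rw [Om, hez] at this
      exact this
    obtain ⟨E', hE'⟩ := indep_of_dual (f := fun a : Fin (r + 1) =>
      (dq (s 0) (s a.succ) i e z).toLinearMap) (E := E) hz4
    have h3 := divide h2 hE' ξ
    have h4 := divide h2 hE' E
    have h5 : (Matrix.of fun a l => (dq (s 0) (s a.succ) i e z).toLinearMap (E l)) = M z := rfl
    rw [h5] at h4
    rw [h3, h4, mul_div_cancel_right₀ _ hz4]
    rfl
  refine ⟨fun z => φ.form i e z E / (M z).det, hφE.div hMd hM0, ?_, hrb, ?_, ?_⟩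
  · intro h0
    apply hφ
    ext ξ
    rw [AlternatingMap.zero_apply, hev.self_of_nhds.2 ξ]
    simp only at h0
    rw [h0, zero_mul]
  · intro y
    refine ⟨∑ b, y b • E b, ?_⟩
    funext a
    rw [hfd _ hrb.differentiableAt, map_sum]
    simp only [map_smul, smul_eq_mul, hE]
    simp
  · filter_upwards [hev] with z hz ξ
    rw [hz.2 ξ]
    congr 3
    funext a
    funext b
    exact (hfd z hz.1 _ _).symm

/-- the morphism vanishes at the point -/
def Van (φ : Mor L r) (x : X) : Prop := ∀ i e, At e x → x ∈ L.U i → φ.form i e (e x) = 0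

omit [IsManifold 𝓘(ℂ, Cm n) ω X] in
theorem van_of {φ : Mor L r} {x : X} {i : L.ι} {e : Chart n X} (he : At e x) (hi : x ∈ L.U i)
    (h : φ.form i e (e x) = 0) : Van φ x := by
  intro i' e' he' hi'
  rw [φ.glue i i' e' x he' hi hi', φ.change i e' e x he' he hi, h]
  ext v
  simp

/-- a nonzero morphism does not vanish on a dense set -/
theorem dense_ne [ConnectedSpace X] {φ : Mor L r} (h : φ.Nonzero) (x : X) :
    ∃ᶠ y in 𝓝 x, ¬ Van φ y := by
  by_contra hcon
  rw [not_frequently] at hcon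
  simp only [not_not] at hcon
  set A : Set X := {x | ∀ᶠ y in 𝓝 x, Van φ y} with hA
  have hAo : IsOpen A := isOpen_setOfPred_eventually_nhds
  have hAc : IsClosed A := by
    rw [← isOpen_compl_iff, isOpen_iff_mem_nhds]
    intro y hy
    obtain ⟨i, hi⟩ := L.cover y
    set e := chartAt (Cm n) y with he
    have hAt : At e y := ⟨chart_mem_atlas _ _, mem_chart_source _ _⟩
    -- a component which is not locally zero
    obtain ⟨ρ, hρ⟩ : ∃ ρ : Fin r → Fin n, ¬ ∀ᶠ z in 𝓝 (e y),
        φ.form i e z (fun a => Pi.single (ρ a) 1) = 0 := by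
      by_contra hcon2
      push Not at hcon2
      apply hy
      have h1 : ∀ᶠ z in 𝓝 (e y), ∀ ρ : Fin r → Fin n,
        φ.form i e z (fun a => Pi.single (ρ a) 1) = 0 := eventually_all.2 hcon2
      have h2 : Tendsto e (𝓝 y) (𝓝 (e y)) := e.continuousAt hAt.2
      filter_upwards [h2.eventually h1, e.open_source.mem_nhds hAt.2,
        (L.isOpen i).mem_nhds hi] with y' a1 a2 a3
      refine van_of ⟨hAt.1, a2⟩ a3 ?_
      by_contra hne
      obtain ⟨ρ, hρ⟩ := exists_std hne
      exact hρ (a1 ρ)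
    have han : AnalyticAt ℂ (fun z => φ.form i e z (fun a => Pi.single (ρ a) 1)) (e y) :=
      (φ.holo i e y hAt hi _).analyticAt
    obtain ⟨δ, hδ, hball⟩ := Metric.eventually_nhds_iff_ball.1 han.eventually_analyticAt
    have hball' : AnalyticOnNhd ℂ (fun z => φ.form i e z (fun a => Pi.single (ρ a) 1))
        (Metric.ball (e y) δ) := fun z hz => hball z hz
    have h2 : Tendsto e (𝓝 y) (𝓝 (e y)) := e.continuousAt hAt.2
    filter_upwards [h2.eventually (Metric.ball_mem_nhds _ hδ), e.open_source.mem_nhds hAt.2,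
      (L.isOpen i).mem_nhds hi] with y' a1 a2 a3 hyA
    apply hρ
    have hAt' : At e y' := ⟨hAt.1, a2⟩
    have h3 : ∀ᶠ z in 𝓝 (e y'), φ.form i e z (fun a => Pi.single (ρ a) 1) = 0 := by
      filter_upwards [ev_symm hAt' hyA, hAt'.nhds_target, ev_symm hAt' ((L.isOpen i).mem_nhds a3)]
        with z b1 b2 b3
      have := b1 i e (At.of_target hAt.1 b2) b3
      rw [e.right_inv b2] at this
      rw [this]
      rfl
    have h4 := hball'.eqOn_zero_of_preconnected_of_eventuallyEq_zero
      (convex_ball _ _).isPreconnected a1 h3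
    filter_upwards [Metric.ball_mem_nhds (e y) hδ] with z hz
    exact h4 hz
  rcases isClopen_iff.1 ⟨hAc, hAo⟩ with h1 | h1
  · have : x ∈ A := hcon
    rw [h1] at this
    exact this
  · obtain ⟨i, e, y, he, hi, h2⟩ := h
    have : y ∈ A := by rw [h1]; exact mem_univ y
    exact h2 (this.self_of_nhds i e he hi)

end

end Vale.Agent.P284.H206.Sp
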