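import Vale.Agent.P284.H206.Bog.Pull
import Vale.Agent.P284.H998.Z6

/-!
# P284 (helper206), DOM ⇒ SPECIAL: analytic germs of alternating forms
-/

open scoped Manifold ContDiff Topology ComplexOrder
open Filter Set

noncomputable section

namespace Vale.Agent.P284.H206.Sp

open Vale.Agent.P272.K Vale.Agent.P284.H998 Vale.Agent.P284.H206.Bog

section
variable {m k r : ℕ}

/-- the form is analytic at `z` -/
def AnF (Ω : Cm m → (Cm m) [⋀^Fin r]→ₗ[ℂ] ℂ) (z : Cm m) : Prop :=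
  ∀ v : Fin r → Cm m, AnalyticAt ℂ (fun y => Ω y v) z

theorem anF_of_std {Ω : Cm m → (Cm m) [⋀^Fin r]→ₗ[ℂ] ℂ} {z : Cm m}
    (h : ∀ ρ : Fin r → Fin m, AnalyticAt ℂ (fun y => Ω y fun a => Pi.single (ρ a) 1) z) :
    AnF Ω z := by
  intro v
  have h1 : (fun y => Ω y v) = fun y => ∑ ρ : Fin r → Fin m, (∏ a, v a (ρ a)) *
      Ω y (fun a => Pi.single (ρ a) 1) := by
    funext y
    exact alt_expand (Ω y) v
  rw [h1]
  exact Finset.analyticAt_fun_sum _ fun ρ _ => analyticAt_const.mul (h ρ)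

theorem AnF.ev {Ω : Cm m → (Cm m) [⋀^Fin r]→ₗ[ℂ] ℂ} {z : Cm m} (h : AnF Ω z) :
    ∀ᶠ y in 𝓝 z, AnF Ω y := by
  have h1 : ∀ᶠ y in 𝓝 z, ∀ ρ : Fin r → Fin m,
      AnalyticAt ℂ (fun y => Ω y fun a => Pi.single (ρ a) 1) y :=
    eventually_all.2 fun ρ => (h _).eventually_analyticAt
  filter_upwards [h1] with y hy using anF_of_std hy

/-- joint continuity -/
theorem AnF.cont {Ω : Cm m → (Cm m) [⋀^Fin r]→ₗ[ℂ] ℂ} {T : Type*} [TopologicalSpace T] {t : T}
    {g : T → Cm m} {V : T → Fin r → Cm m} (h : AnF Ω (g t)) (hg : ContinuousAt g t)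
    (hV : ContinuousAt V t) : ContinuousAt (fun s => Ω (g s) (V s)) t := by
  have h1 : (fun s => Ω (g s) (V s)) = fun s => ∑ ρ : Fin r → Fin m, (∏ a, V s a (ρ a)) *
      Ω (g s) (fun a => Pi.single (ρ a) 1) := by
    funext s
    exact alt_expand _ _
  rw [h1]
  refine tendsto_finsetSum _ fun ρ _ => Tendsto.mul ?_ ?_
  · refine tendsto_finsetProd _ fun a _ => ?_
    exact ((continuous_apply (ρ a)).continuousAt.comp
      ((continuous_apply a).continuousAt.comp hV))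
  · exact ContinuousAt.comp (g := fun y => Ω y fun a => Pi.single (ρ a) 1) (h _).continuousAt hg

/-- the pull-back of a form -/
def pull (Ω : Cm m → (Cm m) [⋀^Fin r]→ₗ[ℂ] ℂ) (g : Cm k → Cm m) (y : Cm k) :
    (Cm k) [⋀^Fin r]→ₗ[ℂ] ℂ :=
  (Ω (g y)).compLinearMap (fderiv ℂ g y).toLinearMap

theorem pull_apply (Ω : Cm m → (Cm m) [⋀^Fin r]→ₗ[ℂ] ℂ) (g : Cm k → Cm m) (y : Cm k)
    (v : Fin r → Cm k) : pull Ω g y v = Ω (g y) fun a => fderiv ℂ g y (v a) := rfl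

theorem AnF.pull {Ω : Cm m → (Cm m) [⋀^Fin r]→ₗ[ℂ] ℂ} {g : Cm k → Cm m} {y : Cm k}
    (h : AnF Ω (g y)) (hg : AnalyticAt ℂ g y) : AnF (pull Ω g) y := by
  intro v
  have h1 : (fun y => Sp.pull Ω g y v) = fun y => ∑ ρ : Fin r → Fin m,
      (∏ a, fderiv ℂ g y (v a) (ρ a)) * Ω (g y) (fun a => Pi.single (ρ a) 1) := by
    funext s
    rw [pull_apply]
    exact alt_expand _ _
  rw [h1]
  refine Finset.analyticAt_fun_sum _ fun ρ _ => AnalyticAt.mul ?_ ?_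
  · refine Finset.analyticAt_fun_prod _ fun a _ => ?_
    have h2 : AnalyticAt ℂ (fun s => fderiv ℂ g s (v a)) y := by
      exact (ContinuousLinearMap.apply ℂ (Cm m) (v a)).analyticAt _ |>.comp hg.fderiv
    exact analyticAt_pi_iff.1 h2 (ρ a)
  · exact AnalyticAt.comp (g := fun y => Ω y fun a => Pi.single (ρ a) 1) (h _) hg

/-- a form with a nonzero value has a nonzero value on standard vectors -/
theorem exists_std {Ω : (Cm m) [⋀^Fin r]→ₗ[ℂ] ℂ} (h : Ω ≠ 0) :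
    ∃ ρ : Fin r → Fin m, Ω (fun a => Pi.single (ρ a) 1) ≠ 0 := by
  by_contra hcon
  push Not at hcon
  apply h
  ext v
  rw [alt_expand Ω v]
  exact Finset.sum_eq_zero fun ρ _ => by rw [hcon ρ, mul_zero]

end

end Vale.Agent.P284.H206.Sp
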