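import Vale.Agent.P284.H383.Tr.Rado2
import Vale.Agent.P284.H221.Sig
import Vale.Agent.P268.Hol
import Mathlib.MeasureTheory.Function.Jacobian

/-!
# P284 (helper206), DOM ⇒ SPECIAL: a holomorphic local homeomorphism is locally biholomorphic
-/

open scoped Manifold ContDiff Topology
open Filter Set MeasureTheory

noncomputable section

namespace Vale.Agent.P284.H206.Sp

open Vale.Agent.P272.K Vale.Agent.P284.H221

variable {n : ℕ}

/-- a holomorphic map with vanishing Jacobian determinant on an open set is not injective with open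
image (Sard) -/
theorem det_dense {f : OpenPartialHomeomorph (Cm n) (Cm n)} (hf : ∀ z ∈ f.source, AnalyticAt ℂ f z)
    {z : Cm n} (hz : z ∈ f.source) : ∃ᶠ y in 𝓝 z, (fderiv ℂ f y).det ≠ 0 := by
  intro hcon
  simp only [not_not] at hcon
  obtain ⟨B, hB, hBo, hzB⟩ := _root_.eventually_nhds_iff.1 (hcon.and (f.open_source.mem_nhds hz))
  have h1 : IsOpen (f '' B) := f.isOpen_image_of_subset_source hBo fun y hy => (hB y hy).2
  have h2 : volume (f '' B) = 0 := by
    refine addHaar_image_eq_zero_of_det_fderivWithin_eq_zero volume (f' := fun y =>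
      (fderiv ℂ f y).restrictScalars ℝ) (fun y hy =>
        ((hf y (hB y hy).2).differentiableAt.hasFDerivAt.restrictScalars ℝ).hasFDerivWithinAt) ?_
    intro y hy
    have h3 : LinearMap.det (fderiv ℂ f y : Cm n →ₗ[ℂ] Cm n) = 0 := (hB y hy).1
    have h4 := LinearMap.det_eq_zero_iff_ker_ne_bot.1 h3
    obtain ⟨v, hv, hv0⟩ := (Submodule.ne_bot_iff _).1 h4
    show LinearMap.det (((fderiv ℂ f y).restrictScalars ℝ : Cm n →L[ℝ] Cm n) : Cm n →ₗ[ℝ] Cm n) = 0
    refine LinearMap.det_eq_zero_iff_ker_ne_bot.2 ((Submodule.ne_bot_iff _).2 ⟨v, hv, hv0⟩)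
  exact (h1.measure_pos volume ⟨f z, z, hzB, rfl⟩).ne' h2

/-- **a holomorphic homeomorphism is biholomorphic** -/
theorem loc_biholo {f : OpenPartialHomeomorph (Cm n) (Cm n)}
    (hf : ∀ z ∈ f.source, AnalyticAt ℂ f z) :
    (∀ w ∈ f.target, AnalyticAt ℂ f.symm w) ∧ ∀ z ∈ f.source, (fderiv ℂ f z).det ≠ 0 := by
  set P : Cm n → ℂ := fun w => (fderiv ℂ f (f.symm w)).det with hP
  have hJ : ∀ z ∈ f.source, AnalyticAt ℂ (fun z => (fderiv ℂ f z).det) z := fun z hz =>
    det_fderiv_analytic (hf z hz)
  -- differentiability of the inverse where `P ≠ 0`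
  have hd : ∀ w ∈ f.target, P w ≠ 0 → DifferentiableAt ℂ f.symm w := by
    intro w hw hPw
    have h1 : HasFDerivAt f ((fderiv ℂ f (f.symm w)).toContinuousLinearEquivOfDetNeZero hPw :
        Cm n →L[ℂ] Cm n) (f.symm w) := by
      rw [ContinuousLinearMap.coe_toContinuousLinearEquivOfDetNeZero]
      exact (hf _ (f.map_target hw)).differentiableAt.hasFDerivAt
    exact (f.hasFDerivAt_symm hw h1).differentiableAt
  have hPc : ContinuousOn P f.target := by
    intro w hw
    have h1 : ContinuousAt (fun z => (fderiv ℂ f z).det) (f.symm w) :=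
      (hJ _ (f.map_target hw)).continuousAt
    exact (ContinuousAt.comp (g := fun z => (fderiv ℂ f z).det) h1
      (f.continuousAt_symm hw)).continuousWithinAt
  have hPd : ∀ w ∈ f.target, P w ≠ 0 → DifferentiableAt ℂ P w := by
    intro w hw hPw
    exact DifferentiableAt.comp w (g := fun z => (fderiv ℂ f z).det)
      (hJ _ (f.map_target hw)).differentiableAt (hd w hw hPw)
  have hden : f.target ⊆ closure {w | w ∈ f.target ∧ P w ≠ 0} := by
    intro w hw
    rw [mem_closure_iff_frequently]
    have h1 := det_dense hf (f.map_target hw)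
    have h2 : Tendsto f (𝓝 (f.symm w)) (𝓝 w) := by
      have := f.continuousAt (f.map_target hw)
      rw [ContinuousAt, f.right_inv hw] at this
      exact this
    refine h2.frequently ?_
    refine (h1.and_eventually (f.open_source.mem_nhds (f.map_target hw))).mono fun z hz => ?_
    refine ⟨f.map_source hz.2, ?_⟩
    show (fderiv ℂ f (f.symm (f z))).det ≠ 0
    rw [f.left_inv hz.2]
    exact hz.1
  have hsymm : DifferentiableOn ℂ f.symm f.target := by
    rw [differentiableOn_pi]
    intro i
    refine H383.Tr.rado f.open_target ?_ hPc ?_ hPd hden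
    · exact (continuous_apply i).comp_continuousOn f.continuousOn_symm
    · intro w hw hPw
      exact differentiableAt_pi.1 (hd w hw hPw) i
  have han : ∀ w ∈ f.target, AnalyticAt ℂ f.symm w := fun w hw =>
    Vale.Agent.P268.analyticAt_of_differentiableOn f.open_target hsymm hw
  refine ⟨han, fun z hz h0 => ?_⟩
  have h1 := LinearMap.det_eq_zero_iff_ker_ne_bot.1 (show
    LinearMap.det (fderiv ℂ f z : Cm n →ₗ[ℂ] Cm n) = 0 from h0)
  obtain ⟨v, hv, hv0⟩ := (Submodule.ne_bot_iff _).1 h1
  apply hv0
  have h2 : HasFDerivAt f.symm (fderiv ℂ f.symm (f z)) (f z) :=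
    (han _ (f.map_source hz)).differentiableAt.hasFDerivAt
  have h3 := h2.comp z (hf z hz).differentiableAt.hasFDerivAt
  have h4 : (fun y => f.symm (f y)) =ᶠ[𝓝 z] id := by
    filter_upwards [f.open_source.mem_nhds hz] with y hy using f.left_inv hy
  have h5 := (hasFDerivAt_id (𝕜 := ℂ) z).congr_of_eventuallyEq h4
  have h6 := h3.unique h5
  have h7 := congrArg (fun T : Cm n →L[ℂ] Cm n => T v) h6
  have h8 : fderiv ℂ f z v = 0 := hv
  simp only [ContinuousLinearMap.comp_apply, h8, map_zero, ContinuousLinearMap.id_apply] at h7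
  exact h7.symm

end Vale.Agent.P284.H206.Sp
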