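import Vale.Agent.P284.H206.Sp.A8
import Vale.Agent.P284.H206.Sp.A9
import Vale.Agent.P284.H837.SpS
import Vale.Agent.P284.H885.Dom

/-!
# P284 (helper206), DOM ⇒ SPECIAL: all finite étale coverings are special
-/

open scoped Manifold ContDiff Topology
open Filter Set MeasureTheory

noncomputable section

namespace Vale.Agent.P284.H206.Sp

open Vale.Agent.P272.K Vale.Agent.P284.H221 Vale.Agent.P284.H998 Vale.Agent.P284.H248
  Vale.Agent.P284.H206.Bog Vale.Agent.P299.H908 Vale.Agent.P284.H837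

section
variable {n N : ℕ} {X Y : Type} [TopologicalSpace X] [ChartedSpace (Cm n) X]
  [IsManifold 𝓘(ℂ, Cm n) ω X] [TopologicalSpace Y] [ChartedSpace (Cm n) Y]
  [IsManifold 𝓘(ℂ, Cm n) ω Y] {π : Y → X}

/-- a holomorphic local homeomorphism in charts -/
theorem loc_rep (hl : IsLocalHomeomorph π) (hh : ContMDiff 𝓘(ℂ, Cm n) 𝓘(ℂ, Cm n) ω π) {y : Y}
    {e' : Chart n Y} {e : Chart n X} (he' : At e' y) (he : At e (π y)) :
    ∃ G : OpenPartialHomeomorph (Cm n) (Cm n), e' y ∈ G.source ∧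
      (∀ z, G z = e (π (e'.symm z))) ∧ (∀ z ∈ G.source, AnalyticAt ℂ G z) ∧
      (∀ w ∈ G.target, AnalyticAt ℂ G.symm w) ∧ ∀ z ∈ G.source, (fderiv ℂ G z).det ≠ 0 := by
  obtain ⟨h, hy, hπ⟩ := hl y
  set G : OpenPartialHomeomorph (Cm n) (Cm n) := (e'.symm.trans h).trans e with hG
  have hGz : ∀ z, G z = e (π (e'.symm z)) := by
    intro z
    rw [hπ]
    rfl
  have hsrc : ∀ z ∈ G.source, z ∈ e'.target ∧ π (e'.symm z) ∈ e.source := by
    intro z hz
    rw [hG] at hz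
    simp only [OpenPartialHomeomorph.trans_source, OpenPartialHomeomorph.symm_source, mem_inter_iff,
      mem_preimage, OpenPartialHomeomorph.coe_trans, Function.comp_apply] at hz
    refine ⟨hz.1.1, ?_⟩
    rw [hπ]
    exact hz.2
  have hmem : e' y ∈ G.source := by
    rw [hG]
    simp only [OpenPartialHomeomorph.trans_source, OpenPartialHomeomorph.symm_source, mem_inter_iff,
      mem_preimage, OpenPartialHomeomorph.coe_trans, Function.comp_apply]
    rw [he'.left_inv, ← hπ]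
    exact ⟨⟨he'.mem_target, hy⟩, he.2⟩
  have han : ∀ z ∈ G.source, AnalyticAt ℂ G z := by
    intro z hz
    obtain ⟨h1, h2⟩ := hsrc z hz
    have h3 := (jc_holo hh (At.of_target he'.1 h1) (e := e) ⟨he.1, h2⟩).analyticAt
    rw [e'.right_inv h1] at h3
    refine h3.congr (Eventually.of_forall fun ζ => (hGz ζ).symm)
  exact ⟨G, hmem, hGz, han, (loc_biholo han).1, (loc_biholo han).2⟩

/-- pull-back of projective coordinates -/
def pjCov (hl : IsLocalHomeomorph π) (hh : ContMDiff 𝓘(ℂ, Cm n) 𝓘(ℂ, Cm n) ω π) {ι : Type}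
    [Fintype ι] (P : PJ n X ι) : PJ n Y ι where
  Z y := P.Z (π y)
  ne y := P.ne (π y)
  opn i := (P.opn i).preimage hh.continuous
  hol y i hi j e' he' := (fn_holo hh he' (e := chartAt (Cm n) (π y))
    ⟨chart_mem_atlas _ _, mem_chart_source _ _⟩ (f := fun x => P.Z x j / P.Z x i)
    (P.hol (π y) i hi j _ ⟨chart_mem_atlas _ _, mem_chart_source _ _⟩).contDiffAt).analyticAt
  imm e' y he' i hi v hv := by
    set e := chartAt (Cm n) (π y) with he0
    have he : At e (π y) := ⟨chart_mem_atlas _ _, mem_chart_source _ _⟩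
    obtain ⟨G, hG1, hG2, hG3, -, hG5⟩ := loc_rep hl hh he' he
    have hGy : G (e' y) = e (π y) := by rw [hG2, he'.left_inv]
    have h1 : fderiv ℂ G (e' y) v = 0 := by
      refine P.imm e (π y) he i hi _ fun j => ?_
      have hd : DifferentiableAt ℂ (fun z => P.Z (e.symm z) j / P.Z (e.symm z) i) (G (e' y)) := by
        rw [hGy]
        exact (P.hol (π y) i hi j e he).differentiableAt
      have h2 := fderiv_comp (𝕜 := ℂ) (e' y) (g := fun z => P.Z (e.symm z) j / P.Z (e.symm z) i)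
        (f := G) hd (hG3 _ hG1).differentiableAt
      have hev : (fun z => P.Z (π (e'.symm z)) j / P.Z (π (e'.symm z)) i) =ᶠ[𝓝 (e' y)]
          (fun z => P.Z (e.symm z) j / P.Z (e.symm z) i) ∘ G := by
        filter_upwards [j_ev' hh.continuous he' he univ_mem] with ζ hζ
        show _ = P.Z (e.symm (G ζ)) j / P.Z (e.symm (G ζ)) i
        rw [hG2, hζ.2.2.2.left_inv]
      have h3 := hv j
      rw [hev.fderiv_eq, h2, hGy] at h3
      exact h3
    by_contra hv0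
    have h4 : LinearMap.ker (fderiv ℂ G (e' y) : Cm n →ₗ[ℂ] Cm n) ≠ ⊥ :=
      (Submodule.ne_bot_iff _).2 ⟨v, h1, hv0⟩
    exact hG5 _ hG1 (LinearMap.det_eq_zero_iff_ker_ne_bot.2 h4)

/-- lifts of holomorphic maps are holomorphic -/
theorem lift_holo (hl : IsLocalHomeomorph π) (hh : ContMDiff 𝓘(ℂ, Cm n) 𝓘(ℂ, Cm n) ω π)
    {Φ : Cm N → X} (hΦ : ContMDiff 𝓘(ℂ, Cm N) 𝓘(ℂ, Cm n) ω Φ) {Φl : Cm N → Y}
    (hc : Continuous Φl) (hp : ∀ t, π (Φl t) = Φ t) :
    ContMDiff 𝓘(ℂ, Cm N) 𝓘(ℂ, Cm n) ω Φl := by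
  intro t
  set e' := chartAt (Cm n) (Φl t) with he0'
  set e := chartAt (Cm n) (Φ t) with he0
  have he' : At e' (Φl t) := ⟨chart_mem_atlas _ _, mem_chart_source _ _⟩
  have he : At e (Φ t) := ⟨chart_mem_atlas _ _, mem_chart_source _ _⟩
  obtain ⟨G, hG1, hG2, hG3, hG4, hG5⟩ := loc_rep hl hh he' (by rw [hp]; exact he)
  have hGt : G (e' (Φl t)) = e (Φ t) := by rw [hG2, he'.left_inv, hp]
  have h1 : AnalyticAt ℂ (fun s => e (Φ s)) t := chart_comp_analytic hΦ he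
  have h2 : AnalyticAt ℂ (fun s => G.symm (e (Φ s))) t := by
    refine AnalyticAt.comp (g := G.symm) (hG4 _ ?_) h1
    rw [← hGt]
    exact G.map_source hG1
  have hcont : ContinuousAt (fun s => e' (Φl s)) t :=
    ContinuousAt.comp (g := e') (e'.continuousAt he'.2) hc.continuousAt
  have hev : ∀ᶠ s in 𝓝 t, Φl s ∈ e'.source ∧ e' (Φl s) = G.symm (e (Φ s)) := by
    filter_upwards [hc.continuousAt.eventually (e'.open_source.mem_nhds he'.2),
      hcont.eventually (G.open_source.mem_nhds hG1)] with s hs1 hs2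
    refine ⟨hs1, ?_⟩
    have h3 : G (e' (Φl s)) = e (Φ s) := by rw [hG2, e'.left_inv hs1, hp]
    rw [← h3, G.left_inv hs2]
  have h3 : ContMDiffAt 𝓘(ℂ, Cm N) 𝓘(ℂ, Cm n) ω (fun s => G.symm (e (Φ s))) t :=
    h2.contDiffAt.contMDiffAt
  have hval : G.symm (e (Φ t)) = e' (Φl t) := (hev.self_of_nhds.2).symm
  have h4 : ContMDiffAt 𝓘(ℂ, Cm N) 𝓘(ℂ, Cm n) ω (fun s => e'.symm (G.symm (e (Φ s)))) t := by
    refine ContMDiffAt.comp t (g := e'.symm) ?_ h3
    rw [hval]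
    exact Vale.Agent.P272.K.chart_symm_contMDiffAt he'.1 he'.mem_target
  refine h4.congr_of_eventuallyEq ?_
  filter_upwards [hev] with s hs
  rw [← hs.2, e'.left_inv hs.1]

/-- a map of rank `n` at one point lifts -/
theorem domW_cover [ConnectedSpace X] [T2Space X] [CompactSpace Y] [Nonempty Y]
    (hcov : IsCoveringMap π) (hh : ContMDiff 𝓘(ℂ, Cm n) 𝓘(ℂ, Cm n) ω π)
    (h : H174.GD.DomW N n X) : H174.GD.DomW N n Y := by
  obtain ⟨Φ, hΦ, ζ, e, he, hs⟩ := h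
  have hl := hcov.isLocalHomeomorph
  have hsurj : Function.Surjective π := by
    have h1 : IsOpen (range π) := hl.isOpenMap.isOpen_range
    have h2 : IsClosed (range π) := (isCompact_range hcov.continuous).isClosed
    exact range_eq_univ.1 (IsClopen.eq_univ ⟨h2, h1⟩ (range_nonempty π))
  obtain ⟨y, hy⟩ := hsurj (Φ ζ)
  obtain ⟨Φl, h1, h2, h3⟩ := H885.exists_lift_at hcov hΦ.continuous hy
  have h6 := lift_holo hl hh hΦ h1 h2
  refine ⟨Φl, h6, ζ, ?_⟩
  set e' := chartAt (Cm n) (Φl ζ) with he0'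
  have he' : At e' (Φl ζ) := ⟨chart_mem_atlas _ _, mem_chart_source _ _⟩
  obtain ⟨G, hG1, hG2, hG3, hG4, hG5⟩ := loc_rep hl hh he' (by rw [h2]; exact he)
  refine ⟨e', he', fun w => ?_⟩
  have h7 : AnalyticAt ℂ (fun s => e' (Φl s)) ζ := chart_comp_analytic h6 he'
  have hev : (fun s => e (Φ s)) =ᶠ[𝓝 ζ] G ∘ fun s => e' (Φl s) := by
    filter_upwards [h1.continuousAt.eventually (e'.open_source.mem_nhds he'.2)] with s hs1
    show _ = G (e' (Φl s))
    rw [hG2, e'.left_inv hs1, h2]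
  have h8 := fderiv_comp (𝕜 := ℂ) ζ (g := G) (f := fun s => e' (Φl s))
    (hG3 _ hG1).differentiableAt h7.differentiableAt
  rw [hev.fderiv_eq, h8] at hs
  obtain ⟨ξ, hξ⟩ := hs (fderiv ℂ G (e' (Φl ζ)) w)
  refine ⟨ξ, ?_⟩
  have h9 : fderiv ℂ G (e' (Φl ζ)) (fderiv ℂ (fun s => e' (Φl s)) ζ ξ - w) = 0 := by
    rw [map_sub, sub_eq_zero]
    exact hξ
  by_contra hne
  have h4 : LinearMap.ker (fderiv ℂ G (e' (Φl ζ)) : Cm n →ₗ[ℂ] Cm n) ≠ ⊥ :=
    (Submodule.ne_bot_iff _).2 ⟨_, h9, sub_ne_zero.2 hne⟩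
  exact hG5 _ hG1 (LinearMap.det_eq_zero_iff_ker_ne_bot.2 h4)

end

/-- **DOM ⇒ FSP** -/
theorem fsp_of_domW {n N : ℕ} {X : Type} [TopologicalSpace X] [T2Space X] [CompactSpace X]
    [ConnectedSpace X] [ChartedSpace (Cm n) X] [IsManifold 𝓘(ℂ, Cm n) ω X] {ι : Type} [Fintype ι]
    (pj : PJ n X ι) (hD : H174.GD.DomW N n X) : FSp n X := by
  intro X' _ _ _ _ _ _ π hcov hh
  exact special_of_domW (pjCov hcov.isLocalHomeomorph hh pj) (domW_cover hcov hh hD)

end Vale.Agent.P284.H206.Sp
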