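import Vale.Agent.P284.H206.Sp.A1

/-!
# P284 (helper206), DOM ⇒ SPECIAL: a hypersurface section to which a given form restricts nontrivially
-/

open scoped Manifold ContDiff Topology ComplexOrder Matrix
open Filter Set

noncomputable section

namespace Vale.Agent.P284.H206.Sp

open Vale.Agent.P272.K Vale.Agent.P299.H908 Vale.Agent.P284.H730.G Vale.Agent.P284.H998
  Vale.Agent.P284.H206.Bog
open Vale.Agent.P272.K.QN (jm jm_holo jm_mulVec loc loc_apply loc_contDiffAt nhds_loc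
  jm_loc_right jm_loc_left)

section
variable {n r : ℕ} {X : Type} [TopologicalSpace X] [ChartedSpace (Cm (n + 1)) X]
  [IsManifold 𝓘(ℂ, Cm (n + 1)) ω X] {ι : Type} [Fintype ι] (D : PJ (n + 1) X ι)

/-- a regular section with a zero near `x₀` at which the restriction of `Ω` to the kernel of `dσ` is
not zero -/
theorem exists_goodF [CompactSpace X] (hR : r ≤ n) {e : Chart (n + 1) X} {x₀ : X} (he : At e x₀)
    {W : Set X} (hW : W ∈ 𝓝 x₀) {Ω : Cm (n + 1) → (Cm (n + 1)) [⋀^Fin r]→ₗ[ℂ] ℂ}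
    (hf : AnF Ω (e x₀)) (hs : Ω (e x₀) ≠ 0) :
    ∃ (a : ι → ℂ) (i : ι) (y : X), (∀ x, D.sec a x = 0 → D.RegAt a x) ∧ D.sec a y = 0 ∧ y ∈ W ∧
      At e y ∧ D.Z y i ≠ 0 ∧ AnF Ω (e y) ∧
      ∃ v : Fin r → Cm (n + 1), (∀ l, fderiv ℂ (fun z => D.sig a i (e.symm z)) (e y) (v l) = 0) ∧
        Ω (e y) v ≠ 0 := by
  obtain ⟨i, hi⟩ := D.exists_ne x₀
  set z₀ := e x₀ with hz₀
  obtain ⟨ρ, hρ⟩ := exists_std hs
  -- a direction which is not used
  obtain ⟨k₀, hk₀⟩ : ∃ k₀, k₀ ∉ Set.range ρ := by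
    by_contra hcon
    push Not at hcon
    have hsur : Function.Surjective ρ := fun k => hcon k
    have := Fintype.card_le_of_surjective ρ hsur
    simp only [Fintype.card_fin] at this
    omega
  set v₀ : Cm (n + 1) := Pi.single k₀ 1 with hv₀
  set V₀ : Fin r → Cm (n + 1) := fun a => Pi.single (ρ a) 1 with hV₀
  set l : Cm (n + 1) →L[ℂ] ℂ := ContinuousLinearMap.proj k₀ with hl
  have hlv : l v₀ = 1 := by simp [hl, hv₀]
  have hlV : ∀ a, l (V₀ a) = 0 := by
    intro a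
    have : ρ a ≠ k₀ := fun h => hk₀ ⟨a, h⟩
    simp [hl, hV₀, this.symm]
  obtain ⟨a0, ha0, ha1⟩ := D.jets he hi 0 l
  have ha1' : ∑ j, a0 j * fderiv ℂ (D.u e i j) z₀ v₀ = 1 := by
    rw [← hlv, ← ha1, sum_apply]
    exact Finset.sum_congr rfl fun j _ => rfl
  -- the differential of the section
  set S : (ι → ℂ) × Cm (n + 1) → Cm (n + 1) →L[ℂ] ℂ := fun p =>
    ∑ j, p.1 j • fderiv ℂ (D.u e i j) p.2 with hS
  have hSc : ContinuousAt S (a0, z₀) := by
    refine tendsto_finsetSum _ fun j _ => ?_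
    have h3 : ContinuousAt (fun p : (ι → ℂ) × Cm (n + 1) => fderiv ℂ (D.u e i j) p.2) (a0, z₀) :=
      ContinuousAt.comp (g := fderiv ℂ (D.u e i j)) (f := Prod.snd)
        (D.u_an he hi j).fderiv.continuousAt continuousAt_snd
    have h4 : ContinuousAt (fun p : (ι → ℂ) × Cm (n + 1) => p.1 j) (a0, z₀) := by fun_prop
    exact h4.smul h3
  have hS0 : S (a0, z₀) = l := ha1
  have hSv : ∀ v, ContinuousAt (fun p => S p v) (a0, z₀) := fun v =>
    hSc.clm_apply continuousAt_const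
  have hSne : ∀ᶠ p in 𝓝 (a0, z₀), S p v₀ ≠ 0 :=
    (hSv v₀).eventually_ne (by rw [hS0, hlv]; exact one_ne_zero)
  -- the projected vectors
  set V : (ι → ℂ) × Cm (n + 1) → Fin r → Cm (n + 1) := fun p a =>
    V₀ a - (S p (V₀ a) / S p v₀) • v₀ with hV
  have hVc : ContinuousAt V (a0, z₀) := by
    refine continuousAt_pi.2 fun a => ?_
    have h1 : ContinuousAt (fun p => S p (V₀ a) / S p v₀) (a0, z₀) :=
      (hSv _).div (hSv _) (by rw [hS0, hlv]; exact one_ne_zero)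
    have h2 : ContinuousAt (fun p => (S p (V₀ a) / S p v₀) • v₀) (a0, z₀) :=
      h1.smul (g := fun _ => v₀) continuousAt_const
    exact continuousAt_const.sub h2
  have hV1 : V (a0, z₀) = V₀ := by
    funext a
    show V₀ a - (S (a0, z₀) (V₀ a) / S (a0, z₀) v₀) • v₀ = V₀ a
    rw [hS0, hlV, zero_div, zero_smul, sub_zero]
  have hΩ : ∀ᶠ p in 𝓝 (a0, z₀), Ω p.2 (V p) ≠ 0 := by
    have h1 : ContinuousAt (fun p : (ι → ℂ) × Cm (n + 1) => Ω p.2 (V p)) (a0, z₀) :=
      AnF.cont (g := Prod.snd) (t := (a0, z₀)) hf continuousAt_snd hVc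
    refine h1.eventually_ne ?_
    rw [hV1]
    exact hρ
  have hE : {p : (ι → ℂ) × Cm (n + 1) | (Ω p.2 (V p) ≠ 0 ∧ S p v₀ ≠ 0) ∧ (p.2 ∈ e.target ∧
      At e (e.symm p.2) ∧ D.Z (e.symm p.2) i ≠ 0) ∧ AnF Ω p.2 ∧ e.symm p.2 ∈ W} ∈
      𝓝 (a0, z₀) := by
    have hc2 : Tendsto (Prod.snd : (ι → ℂ) × Cm (n + 1) → Cm (n + 1)) (𝓝 (a0, z₀)) (𝓝 z₀) :=
      continuousAt_snd
    have hcs : Tendsto e.symm (𝓝 z₀) (𝓝 x₀) := by
      have := (e.continuousAt_symm he.mem_target).tendsto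
      rwa [he.left_inv] at this
    filter_upwards [hΩ, hSne, hc2.eventually (D.nhds_u he hi), hc2.eventually hf.ev,
      hc2.eventually (hcs.eventually hW)] with p h1 h1' h2 h3 h4
    exact ⟨⟨h1, h1'⟩, h2, h3, h4⟩
  have hev := zero_near (D.u e i) z₀ v₀ (fun j => D.u_an he hi j) a0 ha0 ha1' hE
  obtain ⟨a, ha, z, ⟨⟨h1, h1'⟩, ⟨h2, h3, h4⟩, h5, h6⟩, h7⟩ := (dense_reg D).inter_nhds_nonempty hev
  have hez : e (e.symm z) = z := e.right_inv h2
  refine ⟨a, i, e.symm z, ha, ?_, h6, h3, h4, by rw [hez]; exact h5, V (a, z), fun b => ?_, ?_⟩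
  · rw [← D.sig_zero_iff a h4, D.sig_u]
    exact h7
  · rw [D.fderiv_sig a h3 h4, hez]
    show S (a, z) (V₀ b - (S (a, z) (V₀ b) / S (a, z) v₀) • v₀) = 0
    rw [map_sub, map_smul, smul_eq_mul, div_mul_cancel₀ _ h1', sub_self]
  · rw [hez]
    exact h1

variable (a : ι → ℂ)

/-- the restriction of the form to `{σ = 0}` is not zero -/
lemma form_restr {V : Set X} (hV : ∀ x ∈ V, D.sec a x = 0)
    (h : ImmY (n + 1) n (Subtype.val : V → X)) {e : Chart (n + 1) X} {c : OpenPartialHomeomorph V (Cm n)}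
    (hc : Imm (n + 1) (Subtype.val : V → X) c) {y : V} (hy : y ∈ c.source)
    (he : At e (y : X)) {i : ι} (hi : D.Z y i ≠ 0) (Ω : Cm (n + 1) → (Cm (n + 1)) [⋀^Fin r]→ₗ[ℂ] ℂ)
    (hf : AnF Ω (e y))
    (hs : ∃ v : Fin r → Cm (n + 1),
      (∀ l, fderiv ℂ (fun z => D.sig a i (e.symm z)) (e y) (v l) = 0) ∧ Ω (e y) v ≠ 0)
    (hr : fderiv ℂ (fun z => D.sig a i (e.symm z)) (e y) ≠ 0) :
    AnF (pull Ω fun z => e (c.symm z)) (c y) ∧ pull Ω (fun z => e (c.symm z)) (c y) ≠ 0 ∧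
      AnalyticAt ℂ (fun z => e ((c.symm z : V) : X)) (c y) := by
  have hyc : c.symm (c y) = y := c.left_inv hy
  have hct : c y ∈ c.target := c.map_source hy
  have hAt : At e ((c.symm (c y) : V) : X) := by rw [hyc]; exact he
  obtain ⟨h2, h3⟩ := hc (c y) hct e hAt
  have hω := hc.omega h.cont hct hAt
  have hgy : (fun z' => e ((c.symm z' : V) : X)) (c y) = e y := by simp only [hyc]
  have hfa : AnF (pull Ω fun z => e (c.symm z)) (c y) := by
    refine AnF.pull ?_ hω.analyticAt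
    simp only [hyc]
    exact hf
  refine ⟨hfa, ?_, hω.analyticAt⟩
  set G := fderiv ℂ (fun z' => e ((c.symm z' : V) : X)) (c y) with hG
  set S := fderiv ℂ (fun z => D.sig a i (e.symm z)) (e y) with hS
  have hσd : DifferentiableAt ℂ (fun z => D.sig a i (e.symm z)) (e y) :=
    (D.sig_hol a hi e he).differentiableAt
  -- `dσ ∘ G = 0`
  have hSG : S.comp G = 0 := by
    have h4 : HasFDerivAt (fun z => D.sig a i (e.symm z)) S
        ((fun z' => e ((c.symm z' : V) : X)) (c y)) := by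
      rw [hgy]; exact hσd.hasFDerivAt
    have h5 := HasFDerivAt.comp (c y) h4 h2.hasFDerivAt
    have h6 : ((fun z => D.sig a i (e.symm z)) ∘ fun z' => e ((c.symm z' : V) : X)) =ᶠ[𝓝 (c y)]
        fun _ => (0 : ℂ) := by
      have h7 : ContinuousAt (fun z' => ((c.symm z' : V) : X)) (c y) :=
        h.cont.continuousAt.comp (c.continuousAt_symm hct)
      have h8 : e.source ∈ 𝓝 ((c.symm (c y) : V) : X) := e.open_source.mem_nhds hAt.2
      filter_upwards [h7.eventually h8] with z hz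
      show D.sig a i (e.symm (e ((c.symm z : V) : X))) = 0
      rw [e.left_inv hz, D.sig_eq, hV _ (c.symm z).2, zero_div]
    exact (h5.congr_of_eventuallyEq h6.symm).unique (hasFDerivAt_const (0 : ℂ) (c y))
  -- the range of `G` is the kernel of `dσ`
  have hker : ∀ ξ, S ξ = 0 → ∃ v, G v = ξ := by
    have h4 : LinearMap.range (G : Cm n →ₗ[ℂ] Cm (n + 1)) ≤ LinearMap.ker (S : Cm (n + 1) →ₗ[ℂ] ℂ) := by
      rintro _ ⟨v, rfl⟩
      exact congrArg (fun T : Cm n →L[ℂ] ℂ => T v) hSG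
    have h5 : Module.finrank ℂ (LinearMap.range (G : Cm n →ₗ[ℂ] Cm (n + 1))) = n := by
      rw [LinearMap.finrank_range_of_inj h3]
      simp
    have h6 : Module.finrank ℂ (LinearMap.ker (S : Cm (n + 1) →ₗ[ℂ] ℂ)) = n := by
      have h7 := (S : Cm (n + 1) →ₗ[ℂ] ℂ).finrank_range_add_finrank_ker
      have h8 : LinearMap.range (S : Cm (n + 1) →ₗ[ℂ] ℂ) = ⊤ := by
        refine LinearMap.range_eq_top.2 ?_
        obtain ⟨v, hv⟩ : ∃ v, S v ≠ 0 := by
          by_contra hcon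
          push Not at hcon
          exact hr (ContinuousLinearMap.ext hcon)
        intro t
        refine ⟨(t / S v) • v, ?_⟩
        show S ((t / S v) • v) = t
        rw [map_smul, smul_eq_mul, div_mul_cancel₀ _ hv]
      rw [h8, finrank_top] at h7
      simp only [Module.finrank_self, Module.finrank_fintype_fun_eq_card, Fintype.card_fin] at h7
      omega
    have h7 := Submodule.eq_of_le_of_finrank_eq h4 (h5.trans h6.symm)
    intro ξ hξ
    have h8 : ξ ∈ LinearMap.ker (S : Cm (n + 1) →ₗ[ℂ] ℂ) := hξ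
    rw [← h7] at h8
    exact h8
  obtain ⟨v, hv1, hv2⟩ := hs
  choose u hu using fun l => hker (v l) (hv1 l)
  intro h0
  apply hv2
  have h9 : pull Ω (fun z => e (c.symm z)) (c y) u = 0 := by rw [h0]; rfl
  rw [pull_apply] at h9
  have h10 : (fun a => fderiv ℂ (fun z => e ((c.symm z : V) : X)) (c y) (u a)) = v := by
    funext l; exact hu l
  rw [h10] at h9
  rw [← h9, hyc]

end

end Vale.Agent.P284.H206.Sp
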