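import Vale.Agent.P284.H206.Sp.A2

/-!
# P284 (helper206), DOM ⇒ SPECIAL: slices of dimension `r` to which a given `r`-form restricts
nontrivially
-/

open scoped Manifold ContDiff Topology ComplexOrder Matrix
open Filter Set

noncomputable section

namespace Vale.Agent.P284.H206.Sp

open Vale.Agent.P272.K Vale.Agent.P299.H908 Vale.Agent.P284.H730.G Vale.Agent.P284.H998
  Vale.Agent.P284.H206.Bog
open Vale.Agent.P272.K.QN (jm jm_holo jm_mulVec loc loc_apply loc_contDiffAt nhds_loc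
  jm_loc_right jm_loc_left)
open Vale.Agent.P272.K.Prod

/-- one hypersurface section -/
theorem stepF {n r : ℕ} (hR : r ≤ n) {X : Type} [TopologicalSpace X] [T2Space X]
    [CompactSpace X] [ChartedSpace (Cm (n + 1)) X] [IsManifold 𝓘(ℂ, Cm (n + 1)) ω X]
    {ι₀ : Type} [Fintype ι₀] (D₀ : PJ (n + 1) X ι₀)
    {e : Chart (n + 1) X} {x₀ : X} (he : At e x₀) {W : Set X} (hW : W ∈ 𝓝 x₀)
    {Ω : Cm (n + 1) → (Cm (n + 1)) [⋀^Fin r]→ₗ[ℂ] ℂ}
    (hf : AnF Ω (e x₀)) (hs : Ω (e x₀) ≠ 0) :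
    ∃ (Z : Type) (_ : TopologicalSpace Z) (_ : T2Space Z) (_ : CompactSpace Z)
      (_ : ConnectedSpace Z) (_ : ChartedSpace (Cm n) Z) (_ : IsManifold 𝓘(ℂ, Cm n) ω Z)
      (j : Z → X) (_ : ContMDiff 𝓘(ℂ, Cm n) 𝓘(ℂ, Cm (n + 1)) ω j)
      (κ : Type) (_ : Fintype κ) (_ : PJ n Z κ)
      (w : Chart n Z → Cm n → ℝ) (_ : IsCanonicalMetric w)
      (_ : ∀ c z, At c z → (cHess (w c) (c z)).PosDef)
      (z₁ : Z) (c : Chart n Z), At c z₁ ∧ j z₁ ∈ W ∧ At e (j z₁) ∧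
        AnF (pull Ω fun y => e (j (c.symm y))) (c z₁) ∧
        pull Ω (fun y => e (j (c.symm y))) (c z₁) ≠ 0 := by
  obtain ⟨ι, hι, D, hD⟩ := posStmt (n + 1) X ι₀ D₀
  obtain ⟨a, i, y, hreg, hy0, hyW, hye, hyi, hfa, hsur⟩ := exists_goodF D hR he hW hf hs
  obtain ⟨V, hyV, hVcl, hVcon, hO⟩ := exists_component D a hreg hy0
  have hV0 : ∀ x ∈ V, D.sec a x = 0 := by
    obtain ⟨O, -, hVO⟩ := hO
    intro x hx
    exact (hVO.le hx).1
  have hI : ImmY (n + 1) n (Subtype.val : V → X) :=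
    immY_zero D a (V := V) (fun x hx => hreg x (hV0 x hx)) hO
  let := hI.cs
  have : IsManifold 𝓘(ℂ, Cm n) ω V := hI.isManifold
  have : CompactSpace V := isCompact_iff_compactSpace.1 hVcl.isCompact
  have : ConnectedSpace V := isConnected_iff_connectedSpace.1 hVcon
  have hj : ContMDiff 𝓘(ℂ, Cm n) 𝓘(ℂ, Cm (n + 1)) ω (Subtype.val : V → X) := hI.contMDiff
  have hEmb : Emb D a (Subtype.val : V → X) := by
    refine ⟨hj, fun c y e hc he => ?_, fun y => hV0 y y.2⟩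
    have h1 : Imm (n + 1) (Subtype.val : V → X) c := hc.1
    have h2 : At e ((c.symm (c y) : V) : X) := by rw [hc.left_inv]; exact he
    obtain ⟨h3, h4⟩ := h1 (c y) hc.mem_target e h2
    intro v v' hv
    apply h4
    ext p
    have h5 := jm_mulVec (F := loc (Subtype.val : V → X) c e) h3 v p
    have h6 := jm_mulVec (F := loc (Subtype.val : V → X) c e) h3 v' p
    have h7 := congrFun hv p
    simp only [Matrix.mulVec, dotProduct] at h7
    rw [← h5, ← h6] at h7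
    exact h7
  obtain ⟨w, hw, hpos⟩ := hD
  obtain ⟨w', hw', hpos'⟩ := exists_weight hEmb (fun y => hreg y (hV0 y y.2)) hw hpos
  set z₁ : V := ⟨y, hyV⟩ with hz₁
  set c : Chart n V := chartAt (Cm n) z₁ with hc
  have hcAt : At c z₁ := ⟨chart_mem_atlas _ _, mem_chart_source _ _⟩
  have hsr := form_restr D a hV0 hI (e := e) (c := c) hcAt.1 (y := z₁) hcAt.2 hye hyi Ω hfa hsur
    (hreg y hy0 e i hye hyi)
  exact ⟨V, inferInstance, inferInstance, inferInstance, inferInstance, inferInstance,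
    inferInstance, Subtype.val, hj, ι, hι, D.restr hI, w', hw', hpos', z₁, c, hcAt, hyW, hye,
    hsr.1, hsr.2.1⟩

section
variable {m k l r : ℕ}

theorem pull_pull {Ω : Cm m → (Cm m) [⋀^Fin r]→ₗ[ℂ] ℂ} {g : Cm k → Cm m} {h : Cm l → Cm k}
    {y : Cm l} (hg : DifferentiableAt ℂ g (h y)) (hh : DifferentiableAt ℂ h y) :
    pull (pull Ω g) h y = pull Ω (fun x => g (h x)) y := by
  ext v
  rw [pull_apply, pull_apply, pull_apply]
  have h1 : ∀ ξ, fderiv ℂ (fun x => g (h x)) y ξ = fderiv ℂ g (h y) (fderiv ℂ h y ξ) := by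
    intro ξ
    have h2 := fderiv_comp (𝕜 := ℂ) y (g := g) (f := h) hg hh
    rw [show (fun x => g (h x)) = g ∘ h from rfl, h2]
    rfl
  simp only [h1]

theorem pull_congr {Ω : Cm m → (Cm m) [⋀^Fin r]→ₗ[ℂ] ℂ} {g g' : Cm k → Cm m} {y : Cm k}
    (h : g =ᶠ[𝓝 y] g') : pull Ω g y = pull Ω g' y := by
  ext v
  rw [pull_apply, pull_apply, h.fderiv_eq, h.self_of_nhds]

theorem AnF.congr {Ω Ω' : Cm m → (Cm m) [⋀^Fin r]→ₗ[ℂ] ℂ} {z : Cm m} (h : AnF Ω z)
    (he : ∀ᶠ y in 𝓝 z, Ω y = Ω' y) : AnF Ω' z := by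
  intro v
  refine (h v).congr ?_
  filter_upwards [he] with y hy
  rw [hy]

end

/-- the conclusion -/
def Concl {n r : ℕ} {X : Type} [TopologicalSpace X] [ChartedSpace (Cm n) X]
    (e : Chart n X) (W : Set X) (Ω : Cm n → (Cm n) [⋀^Fin r]→ₗ[ℂ] ℂ) : Prop :=
  ∃ (Z : Type) (_ : TopologicalSpace Z) (_ : T2Space Z) (_ : CompactSpace Z)
      (_ : ConnectedSpace Z) (_ : ChartedSpace (Cm r) Z) (_ : IsManifold 𝓘(ℂ, Cm r) ω Z)
      (j : Z → X) (_ : ContMDiff 𝓘(ℂ, Cm r) 𝓘(ℂ, Cm n) ω j)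
      (w : Chart r Z → Cm r → ℝ) (_ : IsCanonicalMetric w)
      (_ : ∀ c z, At c z → (cHess (w c) (c z)).PosDef)
      (z₁ : Z) (c : Chart r Z), At c z₁ ∧ j z₁ ∈ W ∧ At e (j z₁) ∧
        AnF (pull Ω fun y => e (j (c.symm y))) (c z₁) ∧
        pull Ω (fun y => e (j (c.symm y))) (c z₁) ≠ 0

/-- iterated hypersurface sections -/
theorem downF (r : ℕ) : ∀ (k m : ℕ) (_ : m = r + (k + 1)) (X : Type)
    [TopologicalSpace X] [T2Space X] [CompactSpace X] [ChartedSpace (Cm m) X]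
    [IsManifold 𝓘(ℂ, Cm m) ω X] (ι : Type) [Fintype ι] (_ : PJ m X ι)
    (e : Chart m X) (x₀ : X) (_ : At e x₀) (W : Set X) (_ : W ∈ 𝓝 x₀)
    (Ω : Cm m → (Cm m) [⋀^Fin r]→ₗ[ℂ] ℂ) (_ : AnF Ω (e x₀)) (_ : Ω (e x₀) ≠ 0),
    Concl e W Ω := by
  intro k
  induction k with
  | zero =>
    intro m hm X _ _ _ _ _ ι _ D e x₀ he W hW Ω hf hs
    subst hm
    obtain ⟨Z, h1, h2, h3, h4, h5, h6, j, h7, κ, hκ, D', w, h8, h9, z₁, c, h10⟩ :=
      stepF le_rfl D he hW hf hs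
    exact ⟨Z, h1, h2, h3, h4, h5, h6, j, h7, w, h8, h9, z₁, c, h10⟩
  | succ k ih =>
    intro m hm X _ _ _ _ _ ι _ D e x₀ he W hW Ω hf hs
    subst hm
    obtain ⟨Z, h1, h2, h3, h4, h5, h6, j, h7, κ, hκ, D', w, h8, h9, z₁, c, h10, h11, h12, h13, h14⟩ :=
      stepF (n := r + (k + 1)) (by omega) D he (interior_mem_nhds.2 hW) hf hs
    have hW' : j ⁻¹' (interior W ∩ e.source) ∩ c.source ∈ 𝓝 z₁ :=
      Filter.inter_mem ((h7.continuous.continuousAt).preimage_mem_nhds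
        ((isOpen_interior.inter e.open_source).mem_nhds ⟨h11, h12.2⟩))
        (c.open_source.mem_nhds h10.2)
    obtain ⟨Z', h1', h2', h3', h4', h5', h6', j', h7', w', h8', h9', z₂, c', h10', h11', h12',
      h13', h14'⟩ := ih (r + (k + 1)) rfl Z κ D' c z₁ h10 _ hW'
        (pull Ω fun y => e (j (c.symm y))) h13 h14
    have hev : (fun y => e (j (c.symm (c (j' (c'.symm y)))))) =ᶠ[𝓝 (c' z₂)]
        fun y => e (j (j' (c'.symm y))) := by
      have h20 : ContinuousAt (fun y => j' (c'.symm y)) (c' z₂) :=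
        h7'.continuous.continuousAt.comp (c'.continuousAt_symm h10'.mem_target)
      have h21 : c.source ∈ 𝓝 (j' (c'.symm (c' z₂))) := by
        rw [h10'.left_inv]
        exact c.open_source.mem_nhds h12'.2
      filter_upwards [h20.eventually h21] with y hy
      rw [c.left_inv hy]
    have hAe : At e (j (j' z₂)) := ⟨he.1, h11'.1.2⟩
    have hd1 : ∀ᶠ y in 𝓝 (c' z₂), pull (pull Ω fun y => e (j (c.symm y)))
        (fun y => c (j' (c'.symm y))) y = pull Ω (fun y => e (j (j' (c'.symm y)))) y := by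
      filter_upwards [j_ev' h7'.continuous h10' h12' univ_mem,
        j_ev' (h7.comp h7').continuous h10' hAe univ_mem,
        eventually_eventually_nhds.2 hev] with y hy hy2 hy3
      have e1 : c' (c'.symm y) = y := c'.right_inv hy.1
      have d1 : DifferentiableAt ℂ (fun y => c (j' (c'.symm y))) y := by
        have := jc_diff h7' hy.2.1 hy.2.2.2
        rwa [e1] at this
      have d2 : DifferentiableAt ℂ (fun y => e (j (c.symm y))) (c (j' (c'.symm y))) :=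
        jc_diff h7 hy.2.2.2 hy2.2.2.2
      rw [pull_pull d2 d1]
      exact pull_congr hy3
    refine ⟨Z', h1', h2', h3', h4', h5', h6', fun z => j (j' z), h7.comp h7', w', h8', h9', z₂, c',
      h10', interior_subset h11'.1.1, ⟨he.1, h11'.1.2⟩, h13'.congr hd1, ?_⟩
    rw [← hd1.self_of_nhds]
    exact h14'

attribute [local instance] prodCS in
/-- **slices for forms** -/
theorem zF {n r : ℕ} (hr1 : 1 ≤ r) (hr : r ≤ n) {X : Type} [TopologicalSpace X] [T2Space X] [CompactSpace X]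
    [ChartedSpace (Cm n) X] [IsManifold 𝓘(ℂ, Cm n) ω X] {ι : Type} [Fintype ι] (D : PJ n X ι)
    {e : Chart n X} {x₀ : X} (he : At e x₀) {W : Set X} (hW : W ∈ 𝓝 x₀)
    {Ω : Cm n → (Cm n) [⋀^Fin r]→ₗ[ℂ] ℂ} (hf : AnF Ω (e x₀)) (hs : Ω (e x₀) ≠ 0) :
    Concl e W Ω := by
  have : IsManifold 𝓘(ℂ, Cm (n + n)) ω (X × X) := isManifold_prod
  obtain ⟨k, hk⟩ : ∃ k, n + n = r + (k + 1) := ⟨n + n - r - 1, by omega⟩
  have hE : At (pc e e) (x₀, x₀) := at_pc he he
  have hW' : Prod.fst ⁻¹' W ∈ 𝓝 (x₀, x₀) := continuous_fst.continuousAt.preimage_mem_nhds hW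
  have hz : fstP ((pc e e) (x₀, x₀)) = e x₀ := by simp
  have hf' : AnF (pull Ω fstP) ((pc e e) (x₀, x₀)) := by
    refine AnF.pull ?_ (Vale.Agent.P284.H212.analyticAt_fstP _)
    rw [hz]; exact hf
  have hs' : pull Ω fstP ((pc e e) (x₀, x₀)) ≠ 0 := by
    intro h0
    apply hs
    ext ξ
    have h1 := congrArg (fun (F : (Cm (n + n)) [⋀^Fin r]→ₗ[ℂ] ℂ) => F fun a => glue (ξ a) 0) h0
    simp only [pull_apply, hz] at h1
    have h2 : fderiv ℂ (fstP : Cm (n + n) → Cm n) ((pc e e) (x₀, x₀)) = _ :=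
      (Vale.Agent.P284.H212.hasFDerivAt_fstP _).fderiv
    rw [h2] at h1
    have h3 : (fun a => fstP (glue (ξ a) (0 : Cm n))) = ξ := funext fun a => fstP_glue _ _
    have h4 : Ω (e x₀) (fun a => fstP (glue (ξ a) (0 : Cm n))) = 0 := h1
    rw [h3] at h4
    exact h4
  obtain ⟨Z, h1, h2, h3, h4, h5, h6, j, h7, w, h8, h9, z₁, c, h10, h11, h12, h13, h14⟩ :=
    downF r k (n + n) hk (X × X) (ι × ι) (Vale.Agent.P284.H212.pjProd D D) (pc e e) (x₀, x₀) hE
      _ hW' (pull Ω fstP) hf' hs'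
  have h15 : At e (j z₁).1 := by
    have := h12.2
    rw [pc_source] at this
    exact ⟨he.1, this.1⟩
  have hev : ∀ᶠ y in 𝓝 (c z₁), pull (pull Ω fstP) (fun y => pc e e (j (c.symm y))) y =
      pull Ω (fun y => e (j (c.symm y)).1) y := by
    filter_upwards [j_ev' h7.continuous h10 h12 univ_mem] with y hy
    have e1 : c (c.symm y) = y := c.right_inv hy.1
    have d1 : DifferentiableAt ℂ (fun y => pc e e (j (c.symm y))) y := by
      have := jc_diff h7 hy.2.1 hy.2.2.2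
      rwa [e1] at this
    have d2 : DifferentiableAt ℂ (fstP : Cm (n + n) → Cm n) (pc e e (j (c.symm y))) :=
      (Vale.Agent.P284.H212.hasFDerivAt_fstP _).differentiableAt
    rw [pull_pull d2 d1]
    congr 1
    funext x
    simp
  refine ⟨Z, h1, h2, h3, h4, h5, h6, fun z => (j z).1, contMDiff_fst'.comp h7, w, h8, h9, z₁, c,
    h10, h11, h15, h13.congr hev, ?_⟩
  rw [← hev.self_of_nhds]
  exact h14

end Vale.Agent.P284.H206.Sp
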