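import Vale.Agent.P284.H206.Sp.A3
import Vale.Agent.P284.H206.Bog.Fin2

/-!
# P284 (helper206), DOM ⇒ SPECIAL: closedness of `s^{1/k} φ` on a dense open subset of a slice
-/

open scoped Manifold ContDiff Topology ComplexOrder ComplexConjugate Matrix
open Filter Set MeasureTheory

noncomputable section

namespace Vale.Agent.P284.H206.Sp

open Vale.Agent.P272.K Vale.Agent.P272.K.INT Vale.Agent.P272.KOD Vale.Agent.P284.H248
  Vale.Agent.P284.H206.Bog

variable {R : ℕ} {Z : Type} [TopologicalSpace Z] [ChartedSpace (Cm (R + 1)) Z]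
  [IsManifold 𝓘(ℂ, Cm (R + 1)) ω Z]
  {L : LineBundle (R + 1) Z} {k K : ℕ} {w : Chart (R + 1) Z → Cm (R + 1) → ℝ}

/-- the form `s^{1/k} φ` is closed at `z`, computed in the chart `c` -/
def Clo (s : Sec L k) (φ : Mor L R) (c : Chart (R + 1) Z) (z : Z) : Prop :=
  ∀ i, z ∈ L.U i → s.f i z ≠ 0 → ∀ g : Cm (R + 1) → ℂ, ContDiffAt ℂ ω g (c z) →
      (∀ᶠ ζ in 𝓝 (c z), g ζ ^ k = s.f i (c.symm ζ)) →
      ∑ j, dz j (fun ζ => g ζ * bv φ i c ζ j) (c z) = 0

theorem core2 [T2Space Z] [CompactSpace Z] [ConnectedSpace Z] (hw : IsCanonicalMetric w)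
    (hpos : ∀ e x, At e x → (cHess (w e) (e x)).PosDef) (hk : k ≠ 0) (s : Sec L k) (φ : Mor L R) :
    ∃ G : Set Z, IsOpen G ∧ Dense G ∧ ∀ z ∈ G, ∀ i₀, 0 < (part (R + 1) Z).ρ i₀ z →
      Clo s φ ((part (R + 1) Z).e i₀) z := by
  by_cases H : ∃ (z₂ : Z) (c : Chart (R + 1) Z) (i : L.ι), At c z₂ ∧ z₂ ∈ L.U i ∧ s.f i z₂ ≠ 0 ∧
      bv φ i c (c z₂) ≠ 0
  · obtain ⟨z₂, c₂, i, hz₂, hi, hs0, hb0⟩ := H
    -- the jets
    obtain ⟨K, hK1, f₀, f, hjet, -⟩ := H451.jets (R + 1) Z hw hpos z₂ ∅ (by simp)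
    set c := chartAt (Cm (R + 1)) z₂ with hc
    have hz : At c z₂ := ⟨chart_mem_atlas _ _, mem_chart_source _ _⟩
    have hb1 : bv φ i c (c z₂) ≠ 0 := by
      intro h0
      have h := bv_change φ hz₂ hz hi
      rw [h0, smul_zero] at h
      apply hb0
      have hu := jacM_isUnit hz₂ hz
      have : ((jacM c₂ c z₂)⁻¹) *ᵥ (jacM c₂ c z₂ *ᵥ bv φ i c₂ (c₂ z₂)) = 0 := by
        rw [h, Matrix.mulVec_zero]
      rwa [Matrix.mulVec_mulVec, Matrix.nonsing_inv_mul _ hu, Matrix.one_mulVec] at this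
    obtain ⟨a, ha⟩ : ∃ a, hq φ f₀ (f a) i c (c z₂) ≠ 0 := by
      by_contra hcon
      push Not at hcon
      apply hb1
      have h0 : f₀.coeff c (c z₂) ≠ 0 := hjet.1
      refine hjet.2 ?_
      rw [map_zero]
      have hd : ∀ a, DifferentiableAt ℂ (fun ζ => (f a).coeff c ζ / f₀.coeff c ζ) (c z₂) := fun a =>
        (((f a).holo c z₂ hz).div (f₀.holo c z₂ hz) h0).differentiableAt
      funext a
      have e1 : fderiv ℂ (ratio f₀ f c) (c z₂) (bv φ i c (c z₂)) a =
          fderiv ℂ (fun ζ => (f a).coeff c ζ / f₀.coeff c ζ) (c z₂) (bv φ i c (c z₂)) := by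
        have : DifferentiableAt ℂ (ratio f₀ f c) (c z₂) := differentiableAt_pi.2 hd
        have h2 := fderiv_apply (𝕜 := ℂ) this a
        rw [show (fun ζ => (f a).coeff c ζ / f₀.coeff c ζ) = fun ζ => ratio f₀ f c ζ a from rfl, h2]
        rfl
      rw [e1]
      have h3 := hcon a
      have h4 : ∀ j, dz j (fun ζ => (f a).coeff c ζ / f₀.coeff c ζ) (c z₂) =
          (f₀.coeff c (c z₂) * dz j ((f a).coeff c) (c z₂) -
            (f a).coeff c (c z₂) * dz j (f₀.coeff c) (c z₂)) / f₀.coeff c (c z₂) ^ 2 := by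
        intro j
        have hev : (f a).coeff c =ᶠ[𝓝 (c z₂)] fun ζ =>
            ((f a).coeff c ζ / f₀.coeff c ζ) * f₀.coeff c ζ := by
          filter_upwards [(f₀.holo c z₂ hz).continuousAt.eventually_ne h0] with ζ hζ
          field_simp
        have hd0 := (f₀.holo c z₂ hz).differentiableAt
        have h6 := INT.dz_congr (i := j) hev
        have h7 := INT.dz_mul (i := j) ((hd a).restrictScalars ℝ) (hd0.restrictScalars ℝ)
        rw [h7] at h6
        rw [h6]
        field_simp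
        ring
      have h5 : fderiv ℂ (fun ζ => (f a).coeff c ζ / f₀.coeff c ζ) (c z₂) (bv φ i c (c z₂)) =
          ∑ j, bv φ i c (c z₂) j * dz j (fun ζ => (f a).coeff c ζ / f₀.coeff c ζ) (c z₂) := by
        have h6 : bv φ i c (c z₂) = ∑ j, bv φ i c (c z₂) j • (Pi.single j 1 : Cm (R + 1)) := by
          funext l
          simp [Finset.sum_apply, Pi.single_apply]
        conv_lhs => rw [h6]
        rw [map_sum]
        refine Finset.sum_congr rfl fun j _ => ?_
        rw [map_smul, smul_eq_mul, INT.dz_of_holo (hd a)]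
      rw [h5]
      show _ = (0 : ℂ)
      simp only [h4]
      rw [hq] at h3
      have h7 : ∑ j, bv φ i c (c z₂) j * ((f₀.coeff c (c z₂) * dz j ((f a).coeff c) (c z₂) -
            (f a).coeff c (c z₂) * dz j (f₀.coeff c) (c z₂)) / f₀.coeff c (c z₂) ^ 2) =
          (∑ j, (f₀.coeff c (c z₂) * dz j ((f a).coeff c) (c z₂) -
            (f a).coeff c (c z₂) * dz j (f₀.coeff c) (c z₂)) * bv φ i c (c z₂) j) /
              f₀.coeff c (c z₂) ^ 2 := by
        rw [Finset.sum_div]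
        exact Finset.sum_congr rfl fun j _ => by ring
      rw [h7, h3, zero_div]
    set P := PP s φ f₀ (f a) with hP
    have hPne : ∃ e x, At e x ∧ P.coeff e (e x) ≠ 0 := by
      refine ⟨c, z₂, hz, ?_⟩
      rw [hP, PP_coeff s φ f₀ (f a) hz hi]
      exact mul_ne_zero hs0 (pow_ne_zero _ ha)
    have hsne : ∀ (e : Chart (R + 1) Z) (x : Z), At e x → GG P w x ≠ 0 → ∀ i, x ∈ L.U i → s.f i x ≠ 0 := by
      intro e x hx hG i hi h0
      rw [GG_ne hw P hx, hP, PP_coeff s φ f₀ (f a) hx hi, h0, zero_mul] at hG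
      exact hG rfl
    -- the form
    obtain ⟨C, hC, hb1', hb2'⟩ := NA_bdd hw hpos hk s φ
    have hTF : TF (ZS P w) (AA s φ) := by
      refine ⟨fun e x hx hxS a b => ?_, fun e e' x hx hx' _ => AA_change hk s φ e e' x hx hx'⟩
      obtain ⟨i, hi⟩ := L.cover x
      exact AA_smooth hk s φ hx hi (hsne e x hx hxS i hi) a b
    have hDD : ∀ (e : Chart (R + 1) Z) (x : Z), At e x → GG P w x ≠ 0 → 0 ≤ (DD (AA s φ e) (e x)).re := by
      intro e x hx hG
      obtain ⟨i, hi⟩ := L.cover x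
      have hs : s.f i (e.symm (e x)) ≠ 0 := by rw [hx.left_inv]; exact hsne e x hx hG i hi
      obtain ⟨g, hg, hgk⟩ := exists_root (s.holo i e x hx hi) hs hk
      rw [DD_AA hk s φ hx hi hg hgk, Complex.ofReal_re]
      positivity
    refine ⟨{z | GG P w z ≠ 0}, ?_, ?_, ?_⟩
    · exact isOpen_ne.preimage (GG_continuous hw P)
    · intro z'
      have hz'c : At (chartAt (Cm (R + 1)) z') z' := ⟨chart_mem_atlas _ _, mem_chart_source _ _⟩
      rw [mem_closure_iff_nhds]
      intro V hV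
      have hVev : ∀ᶠ ζ in 𝓝 (chartAt (Cm (R + 1)) z' z'), (chartAt (Cm (R + 1)) z').symm ζ ∈ V :=
        ev_symm hz'c hV
      obtain ⟨ζ, hζ1, hζ2⟩ := ((GG_dense hw P hPne hz'c).and_eventually hVev).exists
      exact ⟨_, hζ2, hζ1⟩
    · intro z hzG i₀ hi₀ i hi _ g hg hgk
      have hAt : At ((part (R + 1) Z).e i₀) z := ⟨(part (R + 1) Z).mem i₀,
        (part (R + 1) Z).supp i₀ (subset_tsupport _ (by
          simp only [Function.mem_support]; exact hi₀.ne'))⟩
      have h0 := DD_zero hw hpos P hPne hC hTF (fun e x hx _ => hb1' e x hx)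
        (fun e x hx _ => hb2' e x hx) hDD hzG hi₀
      rw [DD_AA hk s φ hAt hi hg hgk, Complex.ofReal_re] at h0
      exact norm_eq_zero.1 (by simpa using h0)
  · push Not at H
    refine ⟨univ, isOpen_univ, dense_univ, fun z _ i₀ hi₀ i hi h0 g hg hgk => ?_⟩
    set c := (part (R + 1) Z).e i₀ with hc
    have hz : At c z := ⟨(part (R + 1) Z).mem i₀,
        (part (R + 1) Z).supp i₀ (subset_tsupport _ (by
          simp only [Function.mem_support]; exact hi₀.ne'))⟩
    have hev : ∀ᶠ ζ in 𝓝 (c z), bv φ i c ζ = 0 := by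
      have h1 : ContinuousAt (fun ζ => s.f i (c.symm ζ)) (c z) := (s.holo i c z hz hi).continuousAt
      have h2 := h1.eventually_ne (show s.f i (c.symm (c z)) ≠ 0 by rwa [hz.left_inv])
      filter_upwards [U_ev hz hi, h2] with ζ h3 h4
      have := H (c.symm ζ) c i h3.2.1 h3.2.2 h4
      rwa [c.right_inv h3.1] at this
    refine Finset.sum_eq_zero fun j _ => ?_
    have : (fun ζ => g ζ * bv φ i c ζ j) =ᶠ[𝓝 (c z)] fun _ => 0 := by
      filter_upwards [hev] with ζ hζ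
      rw [hζ, Pi.zero_apply, mul_zero]
    rw [INT.dz_congr this, INT.dz_const]

end Vale.Agent.P284.H206.Sp
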