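import Vale.Agent.P284.H206.Sp.A4
import Vale.Agent.P284.H206.Bog.Fin3

/-!
# P284 (helper206), DOM ⇒ SPECIAL: `d(t/s) ∧ φ = 0` for two sections of `L^k` and `φ : L → Ω^R`
-/

open scoped Manifold ContDiff Topology ComplexOrder ComplexConjugate Matrix
open Filter Set MeasureTheory

noncomputable section

namespace Vale.Agent.P284.H206.Sp

open Vale.Agent.P272.K Vale.Agent.P272.K.INT Vale.Agent.P272.KOD Vale.Agent.P284.H248
  Vale.Agent.P284.H206.Bog Vale.Agent.P284.H998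

theorem wd_comp {N M R : ℕ} (α : Cm N →ₗ[ℂ] ℂ) (β : (Cm N) [⋀^Fin R]→ₗ[ℂ] ℂ)
    (T : Cm M →ₗ[ℂ] Cm N) : (wd α β).compLinearMap T = wd (α ∘ₗ T) (β.compLinearMap T) := by
  ext v
  rw [AlternatingMap.compLinearMap_apply, wd_apply, wd_apply]
  rfl

theorem top_zero {N : ℕ} {f : (Cm N) [⋀^Fin N]→ₗ[ℂ] ℂ} (h : f (fun j => Pi.single j 1) = 0) :
    f = 0 := by
  have h1 := f.eq_smul_basis_det (Pi.basisFun ℂ (Fin N))
  have e2 : (fun j => (Pi.single j 1 : Fin N → ℂ)) = (Pi.basisFun ℂ (Fin N)) := by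
    funext j; simp [Pi.basisFun_apply]
  rw [← e2, h, zero_smul] at h1
  exact h1

section
variable {R : ℕ} {Z : Type} [TopologicalSpace Z] [ChartedSpace (Cm (R + 1)) Z]
  [IsManifold 𝓘(ℂ, Cm (R + 1)) ω Z] {L : LineBundle (R + 1) Z} {k : ℕ}

/-- the differential of the ratio in a chart -/
def dq {n : ℕ} {X : Type} [TopologicalSpace X] [ChartedSpace (Cm n) X] {L : LineBundle n X}
    (s t : Sec L k) (i : L.ι) (e : Chart n X) (y : Cm n) : Cm n →L[ℂ] ℂ :=
  fderiv ℂ (fun z => t.f i (e.symm z) / s.f i (e.symm z)) y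

omit [IsManifold 𝓘(ℂ, Cm (R + 1)) ω Z] in
theorem wedge_Z (hk : k ≠ 0) {s t : Sec L k} {φ : Mor L R} {c : Chart (R + 1) Z} {z : Z}
    (hz : At c z) (hs : Clo s φ c z) (ht : Clo t φ c z) {i : L.ι} (hi : z ∈ L.U i)
    (hs0 : s.f i z ≠ 0) (ht0 : t.f i z ≠ 0) :
    wd (dq s t i c (c z)).toLinearMap (φ.form i c (c z)) = 0 := by
  have hsh := s.holo i c z hz hi
  have hth := t.holo i c z hz hi
  have hs1 : s.f i (c.symm (c z)) ≠ 0 := by rwa [hz.left_inv]
  have ht1 : t.f i (c.symm (c z)) ≠ 0 := by rwa [hz.left_inv]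
  obtain ⟨g, hg, hgk⟩ := exists_root hsh hs1 hk
  have hqh : ContDiffAt ℂ ω (fun ζ => t.f i (c.symm ζ) / s.f i (c.symm ζ)) (c z) := hth.div hsh hs1
  have hq1 : t.f i (c.symm (c z)) / s.f i (c.symm (c z)) ≠ 0 := div_ne_zero ht1 hs1
  obtain ⟨ρ, hρ, hρk⟩ := exists_root hqh hq1 hk
  have h1 := hs i hi hs0 g hg hgk
  have h2 := ht i hi ht0 (fun ζ => ρ ζ * g ζ) (hρ.mul hg) (by
    filter_upwards [hgk, hρk, hsh.continuousAt.eventually_ne hs1] with ζ a b c
    rw [mul_pow, a, b, div_mul_cancel₀ _ c])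
  have hg0 : g (c z) ≠ 0 := by
    intro h0
    have := hgk.self_of_nhds
    rw [h0, zero_pow hk] at this
    exact hs1 this.symm
  have hρ0 : ρ (c z) ≠ 0 := by
    intro h0
    have := hρk.self_of_nhds
    rw [h0, zero_pow hk] at this
    exact hq1 this.symm
  have hbv : ∀ j, ContDiffAt ℂ ω (fun ζ => bv φ i c ζ j) (c z) := fun j => bv_holo φ hz hi j
  have h3 : ∀ j, dz j (fun ζ => ρ ζ * g ζ * bv φ i c ζ j) (c z) =
      dz j ρ (c z) * (g (c z) * bv φ i c (c z) j) + ρ (c z) * dz j (fun ζ => g ζ * bv φ i c ζ j) (c z) := by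
    intro j
    have e1 : (fun ζ => ρ ζ * g ζ * bv φ i c ζ j) = fun ζ => ρ ζ * (g ζ * bv φ i c ζ j) := by
      funext ζ; ring
    rw [e1]
    exact INT.dz_mul (i := j) (diff_real hρ) (diff_real (hg.mul (hbv j)))
  simp only [h3, Finset.sum_add_distrib, ← Finset.mul_sum, h1, mul_zero, add_zero] at h2
  have h4 : ∑ j, dz j ρ (c z) * bv φ i c (c z) j = 0 := by
    have h5 : ∑ j, dz j ρ (c z) * (g (c z) * bv φ i c (c z) j) =
        g (c z) * ∑ j, dz j ρ (c z) * bv φ i c (c z) j := by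
      rw [Finset.mul_sum]
      exact Finset.sum_congr rfl fun j _ => by ring
    rw [h5] at h2
    exact (mul_eq_zero.1 h2).resolve_left hg0
  have h6 : ∀ j, dq s t i c (c z) (Pi.single j 1) =
      (k : ℂ) * ρ (c z) ^ (k - 1) * dz j ρ (c z) := by
    intro j
    rw [dq, ← INT.dz_of_holo (hqh.differentiableAt (by simp)),
      INT.dz_congr (i := j) (hρk.mono fun ζ h => h.symm)]
    have hρd : DifferentiableAt ℂ ρ (c z) := hρ.differentiableAt (by simp)
    have h7 : HasFDerivAt (fun ζ => ρ ζ ^ k) ((k • ρ (c z) ^ (k - 1)) • fderiv ℂ ρ (c z)) (c z) :=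
      hρd.hasFDerivAt.pow k
    rw [INT.dz_of_holo h7.differentiableAt, INT.dz_of_holo hρd, h7.fderiv]
    simp
  refine top_zero ?_
  rw [wd_std]
  have h9 : ∀ j, (dq s t i c (c z)).toLinearMap (Pi.single j 1) * vb (φ.form i c (c z)) j =
      (k : ℂ) * ρ (c z) ^ (k - 1) * (dz j ρ (c z) * bv φ i c (c z) j) := by
    intro j
    have : (dq s t i c (c z)).toLinearMap (Pi.single j 1) = dq s t i c (c z) (Pi.single j 1) := rfl
    rw [this, h6 j, bv]
    ring
  simp only [h9, ← Finset.mul_sum, h4, mul_zero]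

end

section
variable {n R : ℕ} {X : Type} [TopologicalSpace X] [ChartedSpace (Cm n) X]
  [IsManifold 𝓘(ℂ, Cm n) ω X] {L : LineBundle n X} {k : ℕ}

/-- `d(t/s) ∧ φ` in a chart -/
def Om (s t : Sec L k) (φ : Mor L R) (i : L.ι) (e : Chart n X) (y : Cm n) :
    (Cm n) [⋀^Fin (R + 1)]→ₗ[ℂ] ℂ :=
  wd (dq s t i e y).toLinearMap (φ.form i e y)

omit [IsManifold 𝓘(ℂ, Cm n) ω X] in
theorem Om_an (s t : Sec L k) (φ : Mor L R) {i : L.ι} {e : Chart n X} {x : X} (he : At e x)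
    (hi : x ∈ L.U i) (hs : s.f i x ≠ 0) : AnF (Om s t φ i e) (e x) := by
  intro v
  have hsh := (s.holo i e x he hi).analyticAt
  have hth := (t.holo i e x he hi).analyticAt
  have hs1 : s.f i (e.symm (e x)) ≠ 0 := by rwa [he.left_inv]
  have hq := hth.div hsh hs1
  have h1 : (fun y => Om s t φ i e y v) = fun y => ∑ j : Fin (R + 1), (-1) ^ (j : ℕ) *
      (dq s t i e y (v j) * φ.form i e y (fun a => v (j.succAbove a))) := by
    funext y
    exact wd_apply _ _ v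
  rw [h1]
  refine Finset.analyticAt_fun_sum _ fun j _ => analyticAt_const.mul (AnalyticAt.mul ?_ ?_)
  · exact (ContinuousLinearMap.apply ℂ ℂ (v j)).analyticAt _ |>.comp hq.fderiv
  · exact (φ.holo i e x he hi _).analyticAt

/-- naturality of `d(t/s) ∧ φ` -/
theorem Om_pull {Z : Type} [TopologicalSpace Z] {N : ℕ} [ChartedSpace (Cm N) Z]
    [IsManifold 𝓘(ℂ, Cm N) ω Z] {j : Z → X} (hj : ContMDiff 𝓘(ℂ, Cm N) 𝓘(ℂ, Cm n) ω j)
    (s t : Sec L k) (φ : Mor L R) {i : L.ι} {e : Chart n X} {c : Chart N Z} {z : Z} (hz : At c z)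
    (he : At e (j z)) (hi : j z ∈ L.U i) (hs : s.f i (j z) ≠ 0) :
    pull (Om s t φ i e) (fun y => e (j (c.symm y))) (c z) =
      Om (pbS hj s) (pbS hj t) (pbM hj φ) i c (c z) := by
  have hsh := (s.holo i e _ he hi).analyticAt
  have hth := (t.holo i e _ he hi).analyticAt
  have hs1 : s.f i (e.symm (e (j z))) ≠ 0 := by rwa [he.left_inv]
  have hq := hth.div hsh hs1
  have hcz : e (j (c.symm (c z))) = e (j z) := by rw [hz.left_inv]
  refine (wd_comp _ _ _).trans ?_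
  show wd _ _ = wd (dq (pbS hj s) (pbS hj t) i c (c z)).toLinearMap ((pbM hj φ).form i c (c z))
  congr 1
  · refine LinearMap.ext fun v => ?_
    show dq s t i e (e (j (c.symm (c z)))) (fderiv ℂ (fun y => e (j (c.symm y))) (c z) v) =
      dq (pbS hj s) (pbS hj t) i c (c z) v
    have hev : (fun ζ => (pbS hj t).f i (c.symm ζ) / (pbS hj s).f i (c.symm ζ)) =ᶠ[𝓝 (c z)]
        fun ζ => (fun y => t.f i (e.symm y) / s.f i (e.symm y)) (e (j (c.symm ζ))) := by
      filter_upwards [j_ev' hj.continuous hz he univ_mem] with ζ hζ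
      show t.f i (j (c.symm ζ)) / s.f i (j (c.symm ζ)) =
        t.f i (e.symm (e (j (c.symm ζ)))) / s.f i (e.symm (e (j (c.symm ζ))))
      rw [hζ.2.2.2.left_inv]
    have hd : DifferentiableAt ℂ (fun y => t.f i (e.symm y) / s.f i (e.symm y))
        (e (j (c.symm (c z)))) := by rw [hcz]; exact hq.differentiableAt
    have h1 := fderiv_comp (𝕜 := ℂ) (c z) (g := fun y => t.f i (e.symm y) / s.f i (e.symm y))
      (f := fun ζ => e (j (c.symm ζ))) hd (jc_diff hj hz he)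
    have e1 : dq (pbS hj s) (pbS hj t) i c (c z) =
        fderiv ℂ (fun ζ => (pbS hj t).f i (c.symm ζ) / (pbS hj s).f i (c.symm ζ)) (c z) := rfl
    rw [e1, hev.fderiv_eq, show (fun ζ => (fun y => t.f i (e.symm y) / s.f i (e.symm y))
      (e (j (c.symm ζ)))) = (fun y => t.f i (e.symm y) / s.f i (e.symm y)) ∘
        fun ζ => e (j (c.symm ζ)) from rfl, h1]
    rfl
  · rw [pbM_form hj φ hz he hi]
    rfl

/-- `d(t/s) ∧ φ = 0`, the case of nonvanishing `t` -/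
theorem Om_zero' [T2Space X] [CompactSpace X] {ι : Type} [Fintype ι] (pj : PJ n X ι)
    (φ : Mor L R) (hk : k ≠ 0) (s t : Sec L k) {i : L.ι} {e : Chart n X} {x : X}
    (he : At e x) (hi : x ∈ L.U i) (hs : s.f i x ≠ 0) (ht : t.f i x ≠ 0) :
    Om s t φ i e (e x) = 0 := by
  by_contra hne
  have han := Om_an s t φ he hi hs
  -- the dimension
  have hRn : R + 1 ≤ n := by
    obtain ⟨ρ, hρ⟩ := exists_std hne
    have hinj : Function.Injective ρ := by
      intro a b hab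
      by_contra hne'
      apply hρ
      exact (Om s t φ i e (e x)).map_eq_zero_of_eq _ (by rw [hab]) hne'
    have := Fintype.card_le_of_injective ρ hinj
    simpa using this
  -- the good neighbourhood
  have hev : ∀ᶠ z in 𝓝 (e x), s.f i (e.symm z) ≠ 0 ∧ t.f i (e.symm z) ≠ 0 := by
    have h1 : ContinuousAt (fun z => s.f i (e.symm z)) (e x) := (s.holo i e x he hi).continuousAt
    have h2 : ContinuousAt (fun z => t.f i (e.symm z)) (e x) := (t.holo i e x he hi).continuousAt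
    exact (h1.eventually_ne (by rwa [he.left_inv])).and (h2.eventually_ne (by rwa [he.left_inv]))
  obtain ⟨O, hO, hOo, hxO⟩ := _root_.eventually_nhds_iff.1 hev
  set W : Set X := e.source ∩ e ⁻¹' O ∩ L.U i with hW
  have hWo : IsOpen W := (e.isOpen_inter_preimage hOo).inter (L.isOpen i)
  have hxW : x ∈ W := ⟨⟨he.2, hxO⟩, hi⟩
  obtain ⟨Z, _, _, _, _, _, _, j, hj, w, hw, hpos, z₁, c₁, hz₁, hjW, hez₁, han₁, hne₁⟩ :=
    zF (by omega) hRn pj he (hWo.mem_nhds hxW) han hne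
  -- the open set of `Z`
  obtain ⟨v₁, hv₁⟩ : ∃ v, pull (Om s t φ i e) (fun y => e (j (c₁.symm y))) (c₁ z₁) v ≠ 0 := by
    by_contra hcon
    push Not at hcon
    exact hne₁ (by ext v; exact hcon v)
  have hev2 : ∀ᶠ y in 𝓝 (c₁ z₁), pull (Om s t φ i e) (fun y => e (j (c₁.symm y))) y v₁ ≠ 0 :=
    (han₁ v₁).continuousAt.eventually_ne hv₁
  obtain ⟨O', hO', hOo', hzO'⟩ := _root_.eventually_nhds_iff.1 hev2
  set V : Set Z := (c₁.source ∩ c₁ ⁻¹' O') ∩ j ⁻¹' W with hV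
  have hVo : IsOpen V := (c₁.isOpen_inter_preimage hOo').inter (hWo.preimage hj.continuous)
  have hVne : V.Nonempty := ⟨z₁, ⟨hz₁.2, hzO'⟩, hjW⟩
  obtain ⟨G, hGo, hGd, hG⟩ := core2 hw hpos hk (pbS hj s) (pbM hj φ)
  obtain ⟨G', hGo', hGd', hG'⟩ := core2 hw hpos hk (pbS hj t) (pbM hj φ)
  obtain ⟨z, hzV, hzG, hzG'⟩ := (hGd.inter_of_isOpen_left hGd' hGo).inter_open_nonempty V hVo hVne
  obtain ⟨i₀, hi₀⟩ : ∃ i₀, 0 < (part (R + 1) Z).ρ i₀ z := by
    by_contra hcon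
    push Not at hcon
    have h1 := (part (R + 1) Z).sum z
    have h2 : ∑ i, (part (R + 1) Z).ρ i z ≤ 0 := Finset.sum_nonpos fun i _ => hcon i
    linarith
  set c := (part (R + 1) Z).e i₀ with hc
  have hz : At c z := ⟨(part (R + 1) Z).mem i₀,
    (part (R + 1) Z).supp i₀ (subset_tsupport _ (by
      simp only [Function.mem_support]; exact hi₀.ne'))⟩
  obtain ⟨⟨hzs, hzO⟩, ⟨⟨hjs, hjO⟩, hji⟩⟩ := hzV
  have hej : At e (j z) := ⟨he.1, hjs⟩
  have hz₁' : At c₁ z := ⟨hz₁.1, hzs⟩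
  obtain ⟨g1, g2⟩ := hO _ hjO
  rw [e.left_inv hjs] at g1 g2
  have h0 : Om (pbS hj s) (pbS hj t) (pbM hj φ) i c (c z) = 0 :=
    wedge_Z hk hz (hG z hzG i₀ hi₀) (hG' z hzG' i₀ hi₀) hji g1 g2
  rw [← Om_pull hj s t φ hz hej hji g1] at h0
  -- change of the chart of `Z`
  have hev4 : (fun ζ => e (j (c.symm ζ))) =ᶠ[𝓝 (c z)]
      fun ζ => (fun y => e (j (c₁.symm y))) (c₁ (c.symm ζ)) := by
    filter_upwards [hz.nhds_at hz₁'] with ζ hζ
    simp only [hζ.2.2.left_inv]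
  have htd := transition_differentiableAt hz hz₁'
  have hcz : c₁ (c.symm (c z)) = c₁ z := by rw [hz.left_inv]
  have hd2 : DifferentiableAt ℂ (fun y => e (j (c₁.symm y))) (c₁ (c.symm (c z))) := by
    rw [hcz]; exact jc_diff hj hz₁' hej
  rw [pull_congr hev4, ← pull_pull (g := fun y => e (j (c₁.symm y)))
    (h := fun ζ => c₁ (c.symm ζ)) hd2 htd] at h0
  have hsurj : Function.Surjective (fderiv ℂ (fun z => c₁ (c.symm z)) (c z)) := by
    intro y
    refine ⟨(jacM c c₁ z)⁻¹ *ᵥ y, ?_⟩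
    funext p
    rw [jmat_mulVec htd]
    have h1 : jacM c c₁ z *ᵥ ((jacM c c₁ z)⁻¹ *ᵥ y) = y := by
      rw [Matrix.mulVec_mulVec, Matrix.mul_nonsing_inv _ (jacM_isUnit hz hz₁'), Matrix.one_mulVec]
    exact congrFun h1 p
  choose u hu using fun a => hsurj (v₁ a)
  apply hO' _ hzO
  have h5 := congrArg (fun (F : (Cm (R + 1)) [⋀^Fin (R + 1)]→ₗ[ℂ] ℂ) => F u) h0
  simp only [pull_apply (pull (Om s t φ i e) fun y => e (j (c₁.symm y)))] at h5
  rw [hcz] at h5
  rw [show (fun a => fderiv ℂ (fun ζ => c₁ (c.symm ζ)) (c z) (u a)) = v₁ from funext hu] at h5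
  exact h5

/-- **`d(t/s) ∧ φ = 0`** -/
theorem Om_zero [T2Space X] [CompactSpace X] {ι : Type} [Fintype ι] (pj : PJ n X ι)
    (φ : Mor L R) (hk : k ≠ 0) (s t : Sec L k) {i : L.ι} {e : Chart n X} {x : X}
    (he : At e x) (hi : x ∈ L.U i) (hs : s.f i x ≠ 0) : Om s t φ i e (e x) = 0 := by
  by_cases ht : t.f i x = 0
  · have h1 : (sadd s t).f i x ≠ 0 := by
      show s.f i x + t.f i x ≠ 0
      rw [ht, add_zero]; exact hs
    have h2 := Om_zero' pj φ hk s (sadd s t) he hi hs h1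
    have hsh := (s.holo i e x he hi).analyticAt
    have hs1 : s.f i (e.symm (e x)) ≠ 0 := by rwa [he.left_inv]
    have hev : (fun z => (sadd s t).f i (e.symm z) / s.f i (e.symm z)) =ᶠ[𝓝 (e x)]
        fun z => 1 + t.f i (e.symm z) / s.f i (e.symm z) := by
      filter_upwards [hsh.continuousAt.eventually_ne hs1] with z hz
      show (s.f i (e.symm z) + t.f i (e.symm z)) / s.f i (e.symm z) = _
      rw [add_div, div_self hz]
    have h3 : dq s (sadd s t) i e (e x) = dq s t i e (e x) := by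
      rw [dq, dq, hev.fderiv_eq, fderiv_const_add]
    rw [Om, h3] at h2
    exact h2
  · exact Om_zero' pj φ hk s t he hi hs ht

end

end Vale.Agent.P284.H206.Sp
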