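import Vale.Agent.P284.H206.Sp.A5

/-!
# P284 (helper206), DOM ⇒ SPECIAL: division by independent linear forms
-/

open scoped Manifold ContDiff Topology ComplexOrder ComplexConjugate Matrix
open Filter Set MeasureTheory

noncomputable section

namespace Vale.Agent.P284.H206.Sp

open Vale.Agent.P272.K Vale.Agent.P284.H248 Vale.Agent.P284.H206.Bog Vale.Agent.P284.H998
  Vale.Agent.P284.H206

section
variable {n r : ℕ}

theorem rel {α : Cm n →ₗ[ℂ] ℂ} {φ : (Cm n) [⋀^Fin (r + 1)]→ₗ[ℂ] ℂ} (h : wd α φ = 0) (w : Cm n)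
    (v : Fin (r + 1) → Cm n) :
    α w * φ v = ∑ l, α (v l) * φ (Function.update v l w) := by
  have h1 := wd_apply α φ (Fin.cons w v : Fin (r + 1 + 1) → Cm n)
  rw [h, AlternatingMap.zero_apply, Fin.sum_univ_succ] at h1
  have e0 : (fun a => (Fin.cons w v : Fin (r + 1 + 1) → Cm n) ((0 : Fin (r + 1 + 1)).succAbove a)) = v := by
    funext a
    rw [Fin.succAbove_zero, Fin.cons_succ]
  have e1 : ∀ l : Fin (r + 1), φ (fun a => (Fin.cons w v : Fin (r + 1 + 1) → Cm n)
      (l.succ.succAbove a)) = (-1) ^ (l : ℕ) * φ (Function.update v l w) := by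
    intro l
    have e2 : (fun a => (Fin.cons w v : Fin (r + 1 + 1) → Cm n) (l.succ.succAbove a)) =
        Matrix.vecCons w (l.removeNth v) := by
      funext a
      refine Fin.cases ?_ (fun b => ?_) a
      · rw [Fin.succ_succAbove_zero]
        rfl
      · rw [Fin.succ_succAbove_succ]
        rfl
    rw [e2, ← AlternatingMap.neg_one_pow_smul_map_insertNth, Fin.insertNth_removeNth]
    simp
  rw [e0, Fin.cons_zero] at h1
  simp only [e1, Fin.cons_succ, Fin.val_succ, Fin.val_zero, pow_zero, one_mul] at h1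
  have h2 : ∀ l : Fin (r + 1), (-1 : ℂ) ^ ((l : ℕ) + 1) * (α (v l) * ((-1) ^ (l : ℕ) *
      φ (Function.update v l w))) = -(α (v l) * φ (Function.update v l w)) := by
    intro l
    have h3 : ((-1 : ℂ) ^ (l : ℕ)) * (-1) ^ (l : ℕ) = 1 := by
      rw [← mul_pow]; simp
    calc (-1 : ℂ) ^ ((l : ℕ) + 1) * (α (v l) * ((-1) ^ (l : ℕ) * φ (Function.update v l w)))
        = -(((-1 : ℂ) ^ (l : ℕ) * (-1) ^ (l : ℕ)) * (α (v l) * φ (Function.update v l w))) := by
          rw [pow_succ]; ring
      _ = _ := by rw [h3, one_mul]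
  simp only [h2, Finset.sum_neg_distrib] at h1
  linear_combination -h1

/-- `φ` vanishes if one argument lies in the common kernel -/
theorem ker_zero {θ : Fin (r + 1) → Cm n →ₗ[ℂ] ℂ} {φ : (Cm n) [⋀^Fin (r + 1)]→ₗ[ℂ] ℂ}
    (h : ∀ a, wd (θ a) φ = 0) {E : Fin (r + 1) → Cm n}
    (hE : ∀ a b, θ a (E b) = if a = b then 1 else 0) (l₀ : Fin (r + 1)) :
    ∀ (m : ℕ) (T : Finset (Fin (r + 1))), Tᶜ.card = m → ∀ v : Fin (r + 1) → Cm n,
      (∀ a, θ a (v l₀) = 0) → (∀ a ∈ T, ∃ l, v l = E a) → φ v = 0 := by
  intro m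
  induction m with
  | zero =>
    intro T hT v hv hTv
    exfalso
    have hTu : ∀ a, a ∈ T := by
      intro a
      have : Tᶜ = ∅ := Finset.card_eq_zero.1 hT
      by_contra ha
      have h2 : a ∈ Tᶜ := Finset.mem_compl.2 ha
      rw [this] at h2
      exact absurd h2 (Finset.notMem_empty a)
    choose l hl using fun a => hTv a (hTu a)
    have hinj : Function.Injective l := by
      intro a b hab
      have h1 : θ a (E a) = θ a (E b) := by rw [← hl a, ← hl b, hab]
      rw [hE, hE] at h1
      by_contra hne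
      simp [hne] at h1
    obtain ⟨a, ha⟩ := Finite.surjective_of_injective hinj l₀
    have h1 := hv a
    rw [← ha, hl a, hE] at h1
    simp at h1
  | succ m ih =>
    intro T hT v hv hTv
    obtain ⟨a, ha⟩ : ∃ a, a ∉ T := by
      have : Tᶜ.Nonempty := Finset.card_pos.1 (by omega)
      obtain ⟨a, ha⟩ := this
      exact ⟨a, Finset.mem_compl.1 ha⟩
    have h1 := rel (h a) (E a) v
    rw [hE, if_pos rfl, one_mul] at h1
    rw [h1]
    refine Finset.sum_eq_zero fun l _ => ?_
    by_cases h0 : θ a (v l) = 0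
    · rw [h0, zero_mul]
    have hl : l₀ ≠ l := by
      rintro rfl
      exact h0 (hv a)
    rw [ih (insert a T) ?_ (Function.update v l (E a)) ?_ ?_, mul_zero]
    · rw [Finset.compl_insert, Finset.card_erase_of_mem (Finset.mem_compl.2 ha), hT]
      rfl
    · intro b
      rw [Function.update_of_ne hl]
      exact hv b
    · intro b hb
      rcases Finset.mem_insert.1 hb with rfl | hb
      · exact ⟨l, Function.update_self _ _ _⟩
      · obtain ⟨l', hl'⟩ := hTv b hb
        have hne : l' ≠ l := by
          rintro rfl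
          apply h0
          rw [hl', hE, if_neg]
          rintro rfl
          exact ha hb
        exact ⟨l', by rw [Function.update_of_ne hne, hl']⟩

/-- **division**: a form of degree `p` with `θ_a ∧ φ = 0` for `p` independent forms is a multiple of
`θ_1 ∧ … ∧ θ_p` -/
theorem divide {θ : Fin (r + 1) → Cm n →ₗ[ℂ] ℂ} {φ : (Cm n) [⋀^Fin (r + 1)]→ₗ[ℂ] ℂ}
    (h : ∀ a, wd (θ a) φ = 0) {E : Fin (r + 1) → Cm n}
    (hE : ∀ a b, θ a (E b) = if a = b then 1 else 0) (v : Fin (r + 1) → Cm n) :
    φ v = φ E * (Matrix.of fun a l => θ a (v l)).det := by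
  -- the projection
  set P : Cm n → Cm n := fun ξ => ∑ b, θ b ξ • E b with hP
  have hθP : ∀ a ξ, θ a (ξ - P ξ) = 0 := by
    intro a ξ
    rw [hP]
    simp only [map_sub, map_sum, map_smul, smul_eq_mul, hE]
    simp
  have hrep : ∀ (u : Fin (r + 1) → Cm n) (l : Fin (r + 1)) (ξ : Cm n),
      φ (Function.update u l (P ξ)) = φ (Function.update u l ξ) := by
    intro u l ξ
    have h1 : φ (Function.update u l (ξ - P ξ)) = 0 := by
      refine ker_zero h hE l _ ∅ rfl _ (fun a => ?_) (fun a ha => absurd ha (Finset.notMem_empty a))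
      rw [Function.update_self]
      exact hθP a ξ
    rw [AlternatingMap.map_update_sub, sub_eq_zero] at h1
    exact h1.symm
  have hPv : φ v = φ (fun l => P (v l)) := by
    have key : ∀ T : Finset (Fin (r + 1)), φ v = φ (T.piecewise (fun l => P (v l)) v) := by
      intro T
      induction T using Finset.induction_on with
      | empty => rw [Finset.piecewise_empty]
      | insert l T hl ih =>
        rw [Finset.piecewise_insert, hrep, ih]
        congr 1
        funext l'
        by_cases hll : l' = l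
        · subst hll
          rw [Function.update_self, Finset.piecewise_eq_of_notMem _ _ _ hl]
        · rw [Function.update_of_ne hll]
    have := key Finset.univ
    rwa [Finset.piecewise_univ] at this
  rw [hPv]
  set J : Matrix (Fin (r + 1)) (Fin (r + 1)) ℂ := Matrix.of fun a l => θ a (v l) with hJ
  -- the top form
  set S : Cm (r + 1) →ₗ[ℂ] Cm n := Fintype.linearCombination ℂ E with hS
  have h3 := top_comp (φ.compLinearMap S) J
  have h4 : ∀ l, S (J *ᵥ Pi.single l 1) = P (v l) := by
    intro l
    rw [hS, Fintype.linearCombination_apply, hP]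
    refine Finset.sum_congr rfl fun b _ => ?_
    congr 1
    rw [Matrix.mulVec_single_one]
    rfl
  have h5 : ∀ l, S (Pi.single l 1) = E l := by
    intro l
    rw [hS, Fintype.linearCombination_apply_single, one_smul]
  rw [AlternatingMap.compLinearMap_apply, AlternatingMap.compLinearMap_apply] at h3
  have h6 : (fun l => S (J *ᵥ Pi.single l 1)) = fun l => P (v l) := funext h4
  have h7 : (fun l => S (Pi.single l 1)) = E := funext h5
  rw [show (fun i => S ((fun j => J *ᵥ Pi.single j 1) i)) = fun l => P (v l) from h6, h7] at h3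
  rw [h3, mul_comm]

end

end Vale.Agent.P284.H206.Sp
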