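import Vale.Agent.P284.H206.Sp.A7
import Vale.Agent.P284.H553.R6.Good
import Vale.Agent.P284.H174.AlbD

/-!
# P284 (helper206), DOM ⇒ SPECIAL

A connected smooth projective manifold `X` of dimension `n` with a holomorphic map `ℂᴺ → X` of rank `n`
at one point is special.
-/

open scoped Manifold ContDiff Topology ComplexOrder ComplexConjugate Matrix
open Filter Set MeasureTheory

noncomputable section

namespace Vale.Agent.P284.H206.Sp

open Vale.Agent.P272.K Vale.Agent.P284.H248 Vale.Agent.P284.H206.Bog Vale.Agent.P284.H998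
  Vale.Agent.P284.H206

/-- a Bogomolov sheaf on a connected projective manifold gives a natural form with a good point -/
theorem form_of_bogomolov {n r : ℕ} {X : Type} [TopologicalSpace X] [T2Space X] [CompactSpace X]
    [ConnectedSpace X] [ChartedSpace (Cm n) X] [IsManifold 𝓘(ℂ, Cm n) ω X] {ι : Type} [Fintype ι]
    (pj : PJ n X ι) {L : LineBundle n X} (hκ : IitakaGE L (r + 1)) {φ : Mor L (r + 1)}
    (hφ : φ.Nonzero) :
    ∃ (k : ℕ) (_ : 1 ≤ k) (v : X → Chart n X → (Fin (r + 1) → Cm n) → EuclideanSpace ℂ (Fin (r + 1 + 1))),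
      H573.HForm n (r + 1) k (id : X → X) (EuclideanSpace ℂ (Fin (r + 1 + 1))) v ∧
      ∃ x, H573.GoodAt (id : X → X) (r + 1) k v x := by
  obtain ⟨k, hk1, s, i, e, x₀, he, hi, hs, hli⟩ := hκ
  have hk : k ≠ 0 := by omega
  have hsh : ∀ a, AnalyticAt ℂ (fun z => (s a).f i (e.symm z)) (e x₀) := fun a =>
    ((s a).holo i e x₀ he hi).analyticAt
  have hs1 : (s 0).f i (e.symm (e x₀)) ≠ 0 := by rwa [he.left_inv]
  have hra : ∀ a : Fin (r + 1), AnalyticAt ℂ (fun z => rb s i e z a) (e x₀) :=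
    fun a => (hsh _).div (hsh 0) hs1
  have hcont : ContinuousAt (fun z => fun a : Fin (r + 1) => dq (s 0) (s a.succ) i e z) (e x₀) :=
    continuousAt_pi.2 fun a => (hra a).fderiv.continuousAt
  have hev1 : ∀ᶠ z in 𝓝 (e x₀), LinearIndependent ℂ fun a : Fin (r + 1) =>
      dq (s 0) (s a.succ) i e z :=
    hcont.eventually (isOpen_setOfPred_linearIndependent.mem_nhds hli)
  have hev2 : ∀ᶠ z in 𝓝 (e x₀), (s 0).f i (e.symm z) ≠ 0 := (hsh 0).continuousAt.eventually_ne hs1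
  have hev3 : ∀ᶠ x in 𝓝 x₀, (LinearIndependent ℂ fun a : Fin (r + 1) =>
      dq (s 0) (s a.succ) i e (e x)) ∧ (s 0).f i x ≠ 0 ∧ At e x ∧ x ∈ L.U i := by
    filter_upwards [(e.continuousAt he.2).eventually hev1, (e.continuousAt he.2).eventually hev2,
      e.open_source.mem_nhds he.2, (L.isOpen i).mem_nhds hi] with x a1 a2 a3 a4
    exact ⟨a1, by rwa [e.left_inv a3] at a2, ⟨he.1, a3⟩, a4⟩
  obtain ⟨x, hx1, hx2, hx3, hx4, hx5⟩ := ((dense_ne hφ x₀).and_eventually hev3).exists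
  have hne : φ.form i e (e x) ≠ 0 := fun h0 => hx1 (van_of hx4 hx5 h0)
  obtain ⟨U, hU, hU0, hb, hbs, hnf⟩ := dec_of pj φ hk s hx4 hx5 hx3 hx2 hne
  exact ⟨k, hk1, _, H553.R6.vS_hform s φ, x,
    H553.R6.good_of_dec H998.zStmt pj φ hk s hx4 hx5 hU hU0 hbs hnf hx3⟩

/-- **DOM ⇒ SPECIAL** -/
theorem special_of_domW {n N : ℕ} {X : Type} [TopologicalSpace X] [T2Space X] [CompactSpace X]
    [ConnectedSpace X] [ChartedSpace (Cm n) X] [IsManifold 𝓘(ℂ, Cm n) ω X] {ι : Type} [Fintype ι]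
    (pj : PJ n X ι) (hD : H174.GD.DomW N n X) : Special n X := by
  intro p hp1 hpn L hκ φ hφ
  obtain ⟨r, rfl⟩ : ∃ r, p = r + 1 := ⟨p - 1, by omega⟩
  obtain ⟨k, hk, v, hv, hgood⟩ := form_of_bogomolov pj hκ.1 hφ
  exact H174.GD.sigW n N (r + 1) k (by omega) hk X ι pj hD X id
    H174.isCoveringMap_id' Function.surjective_id _ v hv hgood

end Vale.Agent.P284.H206.Sp
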